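import Vale.Agent.P088.R2.H303.F.CerF
import Vale.Agent.P088.R2.H269.INF.Ev

/-!
# P088, stage 3, leaf iF: the first order term of the margins
-/

open Set Filter
open scoped ContDiff Topology Matrix

noncomputable section

namespace Vale.Agent.P088.R2.H303.F

open Vale.Agent.P088.LR Vale.Agent.P088.HY Vale.Agent.P088.R2.H475 Vale.Agent.P088.R2.H464.Cu
open Vale.Agent.P088.R2.H31.EP Vale.Agent.P088.R2.H404.INF Vale.Agent.P088.R2.H269.INF
open Vale.Agent.P088.R2.H644.Ch Vale.Agent.P088.R2.H747.SW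
open Vale.Agent.P088.R2.H768.FarJ Vale.Agent.P088.R2.H961.GW Vale.Agent.P088.R2.H960.W

variable {n : ℕ}

/-- The gradients of the basic functions are bounded. -/
theorem grads (n : ℕ) (κ σ e₁ : ℝ) : ∃ C, 0 ≤ C ∧ ∀ (q : Cst) (d : Pk n), Fk n 3 κ σ e₁ q d →
    ∀ z ∈ UF κ q d, ‖fderiv ℝ (uf d.l) z‖ ≤ C ∧ ‖fderiv ℝ (jφ q d) z‖ ≤ C ∧
      ‖fderiv ℝ (jr d) z‖ ≤ C ∧ ‖fderiv ℝ (fun z : VV n => d.l z.1) z‖ ≤ C ∧
      ‖fderiv ℝ (fun z : VV n => d.l z.2) z‖ ≤ C := by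
  by_cases he : 0 < e₁
  · let α := {p : Cst × Pk n // Fk n 3 κ σ e₁ p.1 p.2}
    have H : ∀ a : α, Fk n 3 κ σ e₁ a.1.1 a.1.2 := fun a => a.2
    obtain ⟨-, -, -, p4, p5, p6⟩ := sym he H
    obtain ⟨C1, h1⟩ := p4.bd 0 (by norm_num)
    obtain ⟨C2, h2⟩ := p5.bd 0 (by norm_num)
    obtain ⟨C3, h3⟩ := p6.bd 0 (by norm_num)
    obtain ⟨C4, h4⟩ := (s_lx H).bd 0 (by norm_num)
    obtain ⟨C5, h5⟩ := (s_ly H).bd 0 (by norm_num)
    refine ⟨|C1| + |C2| + |C3| + |C4| + |C5|, by positivity, fun q d h z hz => ?_⟩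
    have k1 := h1 ⟨(q, d), h⟩ z hz
    have k2 := h2 ⟨(q, d), h⟩ z hz
    have k3 := h3 ⟨(q, d), h⟩ z hz
    have k4 := h4 ⟨(q, d), h⟩ z hz
    have k5 := h5 ⟨(q, d), h⟩ z hz
    rw [norm_iteratedFDeriv_zero, pow_zero, mul_one, mul_one] at k1 k2 k3 k4 k5
    have a1 := le_abs_self C1
    have a2 := le_abs_self C2
    have a3 := le_abs_self C3
    have a4 := le_abs_self C4
    have a5 := le_abs_self C5
    have b1 := abs_nonneg C1
    have b2 := abs_nonneg C2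
    have b3 := abs_nonneg C3
    have b4 := abs_nonneg C4
    have b5 := abs_nonneg C5
    refine ⟨by linarith, by linarith, by linarith, by linarith, by linarith⟩
  · exact ⟨0, le_rfl, fun q d h => absurd h.e0 he⟩

/-- The constant of the gradients. -/
def Cg (n : ℕ) (q : Cst) : ℝ := (grads n q.κ₁ q.σ q.e₁).choose

theorem Cg_nn (n : ℕ) (q : Cst) : 0 ≤ Cg n q := (grads n q.κ₁ q.σ q.e₁).choose_spec.1

/-- The constant of the second derivatives of the slow exponential. -/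
def Cs2 : ℝ := 6 + 2 * Cs3 + |slB 2 0| + |slB 1 1|

theorem nsx (i : Fin n) : ‖((Pi.single i 1, 0) : VV n)‖ ≤ 1 := by
  rw [Prod.norm_def, norm_zero]
  exact max_le (H464.Cu.norm_single_le i) zero_le_one

theorem nsy (i : Fin n) : ‖((0, Pi.single i 1) : VV n)‖ ≤ 1 := by
  rw [Prod.norm_def, norm_zero]
  exact max_le zero_le_one (H464.Cu.norm_single_le i)

section pk

variable {q : Cst} {d : Pk n} {e : ℝ} {z : VV n}

/-- The size of `n` after one derivative. -/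
theorem slow2 (h : FarB n q d e) (hz : z ∈ UF q.κ₁ q d) (hC : 0 ≤ Cs3) (i j : ℕ)
    (hij : i + j = 2) : |q.D i j (jφ q d z, jr d z)| ≤
      (3 + Cs3 + |slB i j|) * sz (H269.INF.nn q d z) (bb q e (H269.INF.nn q d z)) 1 := by
  have f := h.fc
  have hn := f.n_ge hz
  obtain ⟨-, -, -, r0⟩ := sm_far f.toFk
  obtain ⟨hz0, -, hr⟩ := r0 z hz
  have hb := f.bb_ge hn
  have hb0 := f.bb_pos hn
  have hn0 : 0 ≤ H269.INF.nn q d z := zero_le_one.trans hn
  have hR := f.R0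
  have hκ := f.κ0
  have key := slow_sz (z := (jφ q d z, jr d z)) f.pk.sl f.s1
    (by have := f.M1; linarith) hz0 (n := H269.INF.nn q d z) (by
      unfold H269.INF.nn
      linarith [f.sn z hz]) hb0 zero_le_one (by
      rw [f.bb_sq hn0]
      have k1 : 8 * q.c' * H269.INF.nn q d z ≤ e * q.κ₁ * H269.INF.nn q d z :=
        mul_le_mul_of_nonneg_right f.cκ hn0
      have k2 : e * H269.INF.nn q d z / q.R * (q.κ₁ * q.R / 8) ≤
          e * H269.INF.nn q d z / q.R * jr d z := by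
        have := f.ep
        gcongr
      have k3 : e * H269.INF.nn q d z / q.R * (q.κ₁ * q.R / 8) =
          e * q.κ₁ * H269.INF.nn q d z / 8 := by field_simp
      show q.c' * H269.INF.nn q d z ≤ e * H269.INF.nn q d z / q.R * jr d z
      linarith) f.c0 (by
      rw [one_mul]
      calc (1 : ℝ) = 8 / (q.κ₁ * q.R) * (q.κ₁ * q.R / 8) := by field_simp
        _ ≤ bb q e (H269.INF.nn q d z) * jr d z :=
            mul_le_mul hb hr (by positivity) hb0.le) hC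
    (fun m hm hm' => f.d3 m hm hm' _ hz0) i j (by omega) (by omega)
  have e1 : i + j - 1 = 1 := by omega
  rw [e1] at key
  calc _ ≤ (2 + 1 + Cs3 + |slB i j| * 1) *
        sz (H269.INF.nn q d z) (bb q e (H269.INF.nn q d z)) 1 := key
    _ = _ := by ring

theorem it2 (f : ℝ → ℝ) (t : ℝ) : iteratedDeriv 2 f t = deriv (deriv f) t := by
  rw [iteratedDeriv_succ, iteratedDeriv_one]

/-- The derivative of the size. -/
theorem hd_nn (h : FarB n q d e) (hz : z ∈ UF q.κ₁ q d) :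
    HasFDerivAt (H269.INF.nn q d) (deriv (deriv d.Φ) (uf d.l z) • fderiv ℝ (uf d.l) z +
      (q.D 2 0 (jφ q d z, jr d z) • fderiv ℝ (jφ q d) z +
        q.D 1 1 (jφ q d z, jr d z) • fderiv ℝ (jr d) z)) z := by
  have f := h.fc
  obtain ⟨su, sφ, sr, r0⟩ := sm_far f.toFk
  have hO := f.toFk.UF_open
  have du : HasFDerivAt (uf d.l) (fderiv ℝ (uf d.l) z) z := (su.diff hO hz).hasFDerivAt
  have dφ : HasFDerivAt (jφ q d) (fderiv ℝ (jφ q d) z) z := (sφ.diff hO hz).hasFDerivAt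
  have dr : HasFDerivAt (jr d) (fderiv ℝ (jr d) z) z := (sr.diff hO hz).hasFDerivAt
  have hΦ : ContDiff ℝ ∞ (deriv d.Φ) := (contDiff_infty_iff_deriv.1 f.pk.top.sm).2
  have k1 : HasDerivAt (deriv d.Φ) (deriv (deriv d.Φ) (uf d.l z)) (uf d.l z) :=
    (hΦ.differentiable (by simp) _).hasDerivAt
  have k2 := k1.comp_hasFDerivAt z du
  have k3 := (f.pk.sl.hd 1 0 (jφ q d z, jr d z) (r0 z hz).1).comp z (dφ.prodMk dr)
  refine (k2.add k3).congr_fderiv ?_
  ext v <;> simp [H768.W.lf]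

theorem sz1_le (h : FarB n q d e) (hz : z ∈ UF q.κ₁ q d) {m : ℝ} (hm : H269.INF.nn q d z ≤ m) :
    sz (H269.INF.nn q d z) (bb q e (H269.INF.nn q d z)) 1 ≤ sz m (bb q e m) 1 :=
  sz_mono (zero_le_one.trans (h.fc.n_ge hz)) (h.fc.bb_pos (h.fc.n_ge hz)).le hm
    (h.fc.bb_mono hm) 1

theorem nn_fd (h : FarB n q d e) (hz : z ∈ UF q.κ₁ q d) (v : VV n) (hv : ‖v‖ ≤ 1) :
    |fderiv ℝ (H269.INF.nn q d) z v| ≤ Cg n q * (7 + 2 * Cs3 + |slB 2 0| + |slB 1 1|) *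
      sz (H269.INF.nn q d z) (bb q e (H269.INF.nn q d z)) 1 := by
  have f := h.fc
  obtain ⟨g1, g2, g3, g4, g5⟩ := (grads n q.κ₁ q.σ q.e₁).choose_spec.2 q d f.toFk z hz
  have C0 := Cg_nn n q
  have hs := slow2 h hz Cs3_nn 2 0 rfl
  have hs' := slow2 h hz Cs3_nn 1 1 rfl
  have hP := f.bP z hz 1 le_rfl (by norm_num)
  rw [show (1 + 1 : ℕ) = 2 from rfl, it2] at hP
  set S := sz (H269.INF.nn q d z) (bb q e (H269.INF.nn q d z)) 1 with hS
  have S0 : 0 ≤ S := sz_nn (zero_le_one.trans (f.n_ge hz)) (f.bb_pos (f.n_ge hz)).le 1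
  have ap : ∀ {L : VV n →L[ℝ] ℝ}, ‖L‖ ≤ Cg n q → |L v| ≤ Cg n q := fun {L} hL => by
    have h1 := L.le_opNorm v
    rw [Real.norm_eq_abs] at h1
    calc |L v| ≤ ‖L‖ * ‖v‖ := h1
      _ ≤ Cg n q * 1 := mul_le_mul hL hv (norm_nonneg _) C0
      _ = _ := mul_one _
  rw [(hd_nn h hz).fderiv]
  simp only [_root_.add_apply, _root_.smul_apply, smul_eq_mul]
  have t1 : |deriv (deriv d.Φ) (uf d.l z) * fderiv ℝ (uf d.l) z v| ≤ S * Cg n q := by
    rw [abs_mul]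
    exact mul_le_mul hP (ap g1) (abs_nonneg _) S0
  have t2 : |q.D 2 0 (jφ q d z, jr d z) * fderiv ℝ (jφ q d) z v| ≤
      (3 + Cs3 + |slB 2 0|) * S * Cg n q := by
    rw [abs_mul]
    exact mul_le_mul hs (ap g2) (abs_nonneg _) ((abs_nonneg _).trans hs)
  have t3 : |q.D 1 1 (jφ q d z, jr d z) * fderiv ℝ (jr d) z v| ≤
      (3 + Cs3 + |slB 1 1|) * S * Cg n q := by
    rw [abs_mul]
    exact mul_le_mul hs' (ap g3) (abs_nonneg _) ((abs_nonneg _).trans hs')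
  calc _ ≤ |deriv (deriv d.Φ) (uf d.l z) * fderiv ℝ (uf d.l) z v| +
        (|q.D 2 0 (jφ q d z, jr d z) * fderiv ℝ (jφ q d) z v| +
          |q.D 1 1 (jφ q d z, jr d z) * fderiv ℝ (jr d) z v|) :=
        (abs_add_le _ _).trans (add_le_add le_rfl (abs_add_le _ _))
    _ ≤ S * Cg n q + ((3 + Cs3 + |slB 2 0|) * S * Cg n q + (3 + Cs3 + |slB 1 1|) * S * Cg n q) :=
        add_le_add t1 (add_le_add t2 t3)
    _ = _ := by ring

/-- The constant of the gradient of the sizes. -/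
def Cn (n : ℕ) (q : Cst) : ℝ := Cg n q * (8 + 2 * Cs3 + |slB 2 0| + |slB 1 1|)

theorem Cn_nn (n : ℕ) (q : Cst) : 0 ≤ Cn n q := by
  have := Cs3_nn
  exact mul_nonneg (Cg_nn n q) (by positivity)

theorem Cn_nb (n : ℕ) : NB_c' (Cn n) := fun _ => rfl

/-- One derivative of `n_x`. -/
theorem nx_fd (h : FarB n q d e) (hz : z ∈ UF q.κ₁ q d) (v : VV n) (hv : ‖v‖ ≤ 1) :
    |fderiv ℝ (nx q d) z v| ≤ Cn n q * sz (nx q d z) (bb q e (nx q d z)) 1 := by
  have f := h.fc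
  obtain ⟨g1, g2, g3, g4, g5⟩ := (grads n q.κ₁ q.σ q.e₁).choose_spec.2 q d f.toFk z hz
  have C0 := Cg_nn n q
  have hΘ : ContDiff ℝ ∞ (deriv d.Θ) := (contDiff_infty_iff_deriv.1 f.pk.Θs).2
  have k1 : HasDerivAt (deriv d.Θ) (deriv (deriv d.Θ) (d.l z.1)) (d.l z.1) :=
    (hΘ.differentiable (by simp) _).hasDerivAt
  have hl : HasFDerivAt (fun z : VV n => d.l z.1) (fderiv ℝ (fun z : VV n => d.l z.1) z) z :=
    ((f.pk.lev.sm.comp contDiff_fst).differentiable (by simp) z).hasFDerivAt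
  have k2 := k1.comp_hasFDerivAt z hl
  have k3 : HasFDerivAt (nx q d) _ z := (hd_nn h hz).add k2
  rw [k3.fderiv]
  have hX := f.bX z hz 1 le_rfl (by norm_num)
  rw [show (1 + 1 : ℕ) = 2 from rfl, it2] at hX
  have hm := f.nx_ge z
  have h1 := (nn_fd h hz v hv).trans (mul_le_mul_of_nonneg_left (sz1_le h hz hm)
    (mul_nonneg C0 (by have := Cs3_nn; positivity)))
  rw [(hd_nn h hz).fderiv] at h1
  have h2 : |fderiv ℝ (fun z : VV n => d.l z.1) z v| ≤ Cg n q := by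
    have h3 := (fderiv ℝ (fun z : VV n => d.l z.1) z).le_opNorm v
    rw [Real.norm_eq_abs] at h3
    calc _ ≤ ‖fderiv ℝ (fun z : VV n => d.l z.1) z‖ * ‖v‖ := h3
      _ ≤ Cg n q * 1 := mul_le_mul g4 hv (norm_nonneg _) C0
      _ = _ := mul_one _
  set S := sz (nx q d z) (bb q e (nx q d z)) 1 with hS
  have h4 : |deriv (deriv d.Θ) (d.l z.1) * fderiv ℝ (fun z : VV n => d.l z.1) z v| ≤
      S * Cg n q := by
    rw [abs_mul]
    exact mul_le_mul hX h2 (abs_nonneg _) ((abs_nonneg _).trans hX)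
  rw [_root_.add_apply]
  refine (abs_add_le _ _).trans ?_
  rw [_root_.smul_apply, smul_eq_mul]
  unfold Cn
  linarith

/-- One derivative of `n_y`. -/
theorem ny_fd (h : FarB n q d e) (hz : z ∈ UF q.κ₁ q d) (v : VV n) (hv : ‖v‖ ≤ 1) :
    |fderiv ℝ (ny q d) z v| ≤ Cn n q * sz (ny q d z) (bb q e (ny q d z)) 1 := by
  have f := h.fc
  obtain ⟨g1, g2, g3, g4, g5⟩ := (grads n q.κ₁ q.σ q.e₁).choose_spec.2 q d f.toFk z hz
  have C0 := Cg_nn n q
  have hΘ : ContDiff ℝ ∞ (deriv d.Θ) := (contDiff_infty_iff_deriv.1 f.pk.Θs).2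
  have k1 : HasDerivAt (deriv d.Θ) (deriv (deriv d.Θ) (d.l z.2)) (d.l z.2) :=
    (hΘ.differentiable (by simp) _).hasDerivAt
  have hl : HasFDerivAt (fun z : VV n => d.l z.2) (fderiv ℝ (fun z : VV n => d.l z.2) z) z :=
    ((f.pk.lev.sm.comp contDiff_snd).differentiable (by simp) z).hasFDerivAt
  have k2 := k1.comp_hasFDerivAt z hl
  have k3 : HasFDerivAt (ny q d) _ z := (hd_nn h hz).add k2
  rw [k3.fderiv]
  have hX := f.bY z hz 1 le_rfl (by norm_num)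
  rw [show (1 + 1 : ℕ) = 2 from rfl, it2] at hX
  have hm := f.ny_ge z
  have h1 := (nn_fd h hz v hv).trans (mul_le_mul_of_nonneg_left (sz1_le h hz hm)
    (mul_nonneg C0 (by have := Cs3_nn; positivity)))
  rw [(hd_nn h hz).fderiv] at h1
  have h2 : |fderiv ℝ (fun z : VV n => d.l z.2) z v| ≤ Cg n q := by
    have h3 := (fderiv ℝ (fun z : VV n => d.l z.2) z).le_opNorm v
    rw [Real.norm_eq_abs] at h3
    calc _ ≤ ‖fderiv ℝ (fun z : VV n => d.l z.2) z‖ * ‖v‖ := h3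
      _ ≤ Cg n q * 1 := mul_le_mul g5 hv (norm_nonneg _) C0
      _ = _ := mul_one _
  set S := sz (ny q d z) (bb q e (ny q d z)) 1 with hS
  have h4 : |deriv (deriv d.Θ) (d.l z.2) * fderiv ℝ (fun z : VV n => d.l z.2) z v| ≤
      S * Cg n q := by
    rw [abs_mul]
    exact mul_le_mul hX h2 (abs_nonneg _) ((abs_nonneg _).trans hX)
  rw [_root_.add_apply]
  refine (abs_add_le _ _).trans ?_
  rw [_root_.smul_apply, smul_eq_mul]
  unfold Cn
  linarith

end pk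

/-- Arithmetic of the first order term. -/
theorem w_ar {L G m F C K b e : ℝ} {N : ℕ} (hm : 1 ≤ m) (hb : 0 ≤ b) (hC : 0 ≤ C) (hK : 0 ≤ K)
    (hL : |L| ≤ C * (m * b)) (hG : |G| ≤ N ^ 2 * (2 * (K * (m * b)) * (C * m)))
    (hF : 1 / 100 * m ^ 2 ≤ F) (hs : 100 * (C + 2 * N ^ 2 * K * C) * b ≤ e * m) :
    |m * L + G| ≤ e * (m * F) := by
  have h1 : |m * L| ≤ m * (C * (m * b)) := by
    rw [abs_mul, abs_of_nonneg (by linarith : (0 : ℝ) ≤ m)]
    exact mul_le_mul_of_nonneg_left hL (by linarith)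
  have h2 : |m * L + G| ≤ m * (C * (m * b)) + N ^ 2 * (2 * (K * (m * b)) * (C * m)) :=
    (abs_add_le _ _).trans (add_le_add h1 hG)
  have e1 : m * (C * (m * b)) + N ^ 2 * (2 * (K * (m * b)) * (C * m)) =
      m ^ 2 * (1 / 100) * (100 * (C + 2 * N ^ 2 * K * C) * b) := by ring
  have hm0 : 0 ≤ m := by linarith
  have he : 0 ≤ e * m := le_trans (by positivity) hs
  have h3 : m ^ 2 * (1 / 100) * (100 * (C + 2 * N ^ 2 * K * C) * b) ≤
      m ^ 2 * (1 / 100) * (e * m) := mul_le_mul_of_nonneg_left hs (by positivity)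
  have h4 : (e * m) * (1 / 100 * m ^ 2) ≤ (e * m) * F := mul_le_mul_of_nonneg_left hF he
  calc _ ≤ _ := h2
    _ = _ := e1
    _ ≤ m ^ 2 * (1 / 100) * (e * m) := h3
    _ = (e * m) * (1 / 100 * m ^ 2) := by ring
    _ ≤ (e * m) * F := h4
    _ = _ := by ring

/-- **Row W.** -/
theorem rowW {n : ℕ} (hn : 1 ≤ n) (hG : RowG n) : RowW n := by
  intro e he
  have h1 := ev_far hn (e := fun _ => 1) (fun _ => rfl) (EvC.of fun _ => ⟨one_pos, le_rfl⟩)
  have h2 : EvC fun q => 100 * (Cf n q + 2 * n ^ 2 * Cn n q * Cf n q) ≤ e * √q.R := by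
    have h := EvC.at_R (fun q t => 100 * (Cf n q + 2 * n ^ 2 * Cn n q * Cf n q) ≤ e * √t)
      fun q => by
        have t1 := Real.tendsto_sqrt_atTop.const_mul_atTop he
        exact t1.eventually_ge_atTop _
    refine h.mono fun q hq => ?_
    exact hq
  have h3 : EvC fun q => n * q.ε ≤ 1 / 2 := by
    refine EvC.at_ε (fun _ t => n * t ≤ 1 / 2) fun _ => ?_
    have : (0 : ℝ) < 1 / (2 * (n + 1)) := by positivity
    refine ev_sml this fun t h0 ht => ?_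
    rw [le_div_iff₀ (by positivity)] at ht
    nlinarith
  refine ((h1.and h2).and (hG.and (EvC.pos.and h3))).mono fun q hq d h z hz => ?_
  obtain ⟨⟨a1, a2⟩, a3, a4, a5⟩ := hq
  have f := a1 d h
  obtain ⟨F1, F2⟩ := a3 d h z hz
  have fc := f.fc
  have hR := fc.R0
  have hR1 := fc.R1
  have n1 := fc.n_ge hz.1
  have nx1 := n1.trans (fc.nx_ge z)
  have ny1 := n1.trans (fc.ny_ge z)
  have hε := fc.ε1
  have b1 : ∀ i j, |d.sx.s i j z| ≤ 2 := fun i j => by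
    have h1 : |d.s₁ z.1 i j - (1 : Matrix (Fin n) (Fin n) ℝ) i j| ≤ q.ε := by
      have := (H657.W.Rg.t1 h.rg).cl i j 0 (by norm_num) z.1
      simpa using this
    have h2 : |(1 : Matrix (Fin n) (Fin n) ℝ) i j| ≤ 1 := by
      rw [Matrix.one_apply]; split_ifs <;> simp
    show |d.s₁ z.1 i j| ≤ 2
    have := abs_sub_abs_le_abs_sub (d.s₁ z.1 i j) ((1 : Matrix (Fin n) (Fin n) ℝ) i j)
    linarith
  have b2 : ∀ i j, |d.sy.s i j z| ≤ 2 := fun i j => by
    have h1 : |d.s₂ z.2 i j - (1 : Matrix (Fin n) (Fin n) ℝ) i j| ≤ q.ε := by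
      have := (H657.W.Rg.t2 h.rg).cl i j 0 (by norm_num) z.2
      simpa using this
    have h2 : |(1 : Matrix (Fin n) (Fin n) ℝ) i j| ≤ 1 := by
      rw [Matrix.one_apply]; split_ifs <;> simp
    show |d.s₂ z.2 i j| ≤ 2
    have := abs_sub_abs_le_abs_sub (d.s₂ z.2 i j) ((1 : Matrix (Fin n) (Fin n) ℝ) i j)
    linarith
  -- `b ≤ m / √R`
  have hb : ∀ m : ℝ, 1 ≤ m → 100 * (Cf n q + 2 * n ^ 2 * Cn n q * Cf n q) * bb q 1 m ≤
      e * m := fun m hm => by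
    have hs : 0 < √q.R := Real.sqrt_pos.2 hR
    have k1 : bb q 1 m ≤ m / √q.R := by
      unfold bb
      rw [one_mul, Real.sqrt_div (by linarith)]
      gcongr
      rw [Real.sqrt_le_left (by linarith)]
      nlinarith
    have k0 : 0 ≤ 100 * (Cf n q + 2 * n ^ 2 * Cn n q * Cf n q) := by
      have := Cf_nn n q
      have := Cn_nn n q
      positivity
    calc _ ≤ 100 * (Cf n q + 2 * n ^ 2 * Cn n q * Cf n q) * (m / √q.R) :=
          mul_le_mul_of_nonneg_left k1 k0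
      _ ≤ e * √q.R * (m / √q.R) := mul_le_mul_of_nonneg_right a2 (by positivity)
      _ = _ := by field_simp
  have sb := f.sb z hz.1
  have L1 := sb.L1
  have L1' := sb.L1'
  rw [sz1] at L1 L1'
  have hd1 : ∀ i, |d.sx.D i (nx q d) z| ≤ Cn n q * (nx q d z * bb q 1 (nx q d z)) := fun i => by
    have := nx_fd f hz.1 _ (nsx (n := n) i)
    rw [sz1] at this
    have e1 : d.sx.D i (nx q d) z = fderiv ℝ (nx q d) z (Pi.single i 1, 0) :=
      H464.Cu.Dx1 (s := d.s₁) i _ z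
    rw [e1]
    exact this
  have hd2 : ∀ i, |d.sy.D i (ny q d) z| ≤ Cn n q * (ny q d z * bb q 1 (ny q d z)) := fun i => by
    have := ny_fd f hz.1 _ (nsy (n := n) i)
    rw [sz1] at this
    have e1 : d.sy.D i (ny q d) z = fderiv ℝ (ny q d) z (0, Pi.single i 1) :=
      H464.Cu.Dy1 (s := d.s₂) i _ z
    rw [e1]
    exact this
  have w1 : ∀ i, |d.sx.D i (d.W q) z| ≤ Cf n q * nx q d z := fun i => by
    have := sb.d1 i
    rwa [sz0] at this
  have w2 : ∀ i, |d.sy.D i (d.W q) z| ≤ Cf n q * ny q d z := fun i => by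
    have := sb.d1' i
    rwa [sz0] at this
  constructor
  · refine w_ar (N := n) nx1 (fc.bb_pos nx1).le (Cf_nn n q) (Cn_nn n q) L1 ?_ F1 (hb _ nx1)
    have := H644.Sy.G_le b1 hd1 w1
    simpa using this
  · refine w_ar (N := n) ny1 (fc.bb_pos ny1).le (Cf_nn n q) (Cn_nn n q) L1' ?_ F2 (hb _ ny1)
    have := H644.Sy.G_le b2 hd2 w2
    simpa using this

end Vale.Agent.P088.R2.H303.F
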