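import Vale.Agent.P088.R2.H303.F.Spec
import Vale.Agent.P088.R2.H31.EP.Thx

/-!
# P088, stage 3, leaf iF: the certificate on the package
-/

open Set Filter
open scoped ContDiff Topology Matrix

noncomputable section

namespace Vale.Agent.P088.R2.H303.F

open Vale.Agent.P088.LR Vale.Agent.P088.HY Vale.Agent.P088.R2.H475 Vale.Agent.P088.R2.H464.Cu
open Vale.Agent.P088.R2.H31.EP Vale.Agent.P088.R2.H404.INF Vale.Agent.P088.R2.H269.INF
open Vale.Agent.P088.R2.H644.Ch Vale.Agent.P088.R2.H747.SW Vale.Agent.P088.R2.H230.W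
open Vale.Agent.P088.R2.H768.FarJ Vale.Agent.P088.R2.H961.GW Vale.Agent.P088.R2.H960.W

section congr

variable {E ι κ : Type*} [NormedAddCommGroup E] [NormedSpace ℝ E] [Fintype ι] [Fintype κ]
  {σ : Sl E ι} {τ : Sl E κ} {f g : E → ℝ} {z : E}

theorem TH_cg (h : f =ᶠ[𝓝 z] g) (A : ι → ℝ) (B : κ → ℝ) :
    TH σ τ f z A B = TH σ τ g z A B := by
  have h1 : ∀ i, σ.D i f =ᶠ[𝓝 z] σ.D i g := fun i =>
    h.eventually_nhds.mono fun w hw => D_congr_nhds _ hw i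
  have h2 : ∀ i, τ.D i f =ᶠ[𝓝 z] τ.D i g := fun i =>
    h.eventually_nhds.mono fun w hw => D_congr_nhds _ hw i
  have a1 : ∀ i j, σ.D i (σ.D j f) z = σ.D i (σ.D j g) z := fun i j => D_congr_nhds _ (h1 j) i
  have a2 : ∀ i j, σ.D i (τ.D j f) z = σ.D i (τ.D j g) z := fun i j => D_congr_nhds _ (h2 j) i
  have a3 : ∀ i j, τ.D i (τ.D j f) z = τ.D i (τ.D j g) z := fun i j => D_congr_nhds _ (h2 j) i
  have b1 : ∀ i, σ.D i f z = σ.D i g z := fun i => (h1 i).self_of_nhds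
  have b2 : ∀ i, τ.D i f z = τ.D i g z := fun i => (h2 i).self_of_nhds
  unfold TH Mc Sl.Hc
  simp only [a1, a2, a3, b1, b2]

end congr

/-- The logarithm of the profile. -/
def SF (e₁ r : ℝ) : ℝ := Real.log (prS e₁ (r ^ 2))

/-- The derivative of `S' / S`. -/
def SF2 (e₁ r : ℝ) : ℝ := -(prE e₁ r) * prL e₁ r / r

/-- The properties of the profile with the radius `R₁`. -/
abbrev PrF (e₁ R₁ : ℝ) : Prop := H644.IsProf 2 Li e₁ rp R₁ (prS e₁) (H644.Ph1 2 Li e₁ rp dp)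
  (H644.Ph2 2 Li e₁ rp dp) (prL e₁) (prE e₁)

theorem prf_ex {e₁ : ℝ} (h : 0 < e₁) : ∃ R₁, PrF e₁ R₁ := (pp h).isProf

theorem PrF.dS1 {e₁ R₁ r : ℝ} (h : PrF e₁ R₁) (hr : 0 < r) :
    HasDerivAt (SF e₁) (prL e₁ r) r := by
  have h1 := h.dS r hr
  have h2 := h.pos (r ^ 2) (by positivity)
  have h3 := h1.log h2.ne'
  refine h3.congr_deriv ?_
  field_simp

theorem PrF.dS2 {e₁ R₁ r : ℝ} (h : PrF e₁ R₁) (hr : 0 < r) :
    HasDerivAt (prL e₁) (SF2 e₁ r) r := h.dL r hr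

variable {n : ℕ} {q : Cst} {d : Pk n} {z : VV n}

theorem jφ_eq (z : VV n) (h : 0 ≤ r2 (gi d.s₁) z) :
    jφ q d z = uf d.l z + SF q.e₁ (jr d z) := by
  unfold jφ SF jr
  rw [Real.sq_sqrt h]

section pk

variable {ℓ : ℝ}

/-- The functions on the far region. -/
theorem sm_far (hF : Fk n ℓ q.κ₁ q.σ q.e₁ q d) :
    Sm (UL ℓ q.κ₁ q d) (uf d.l) ∧ Sm (UL ℓ q.κ₁ q d) (jφ q d) ∧ Sm (UL ℓ q.κ₁ q d) (jr d) ∧
    ∀ z ∈ UL ℓ q.κ₁ q d, 0 < jr d z ∧ 0 ≤ r2 (gi d.s₁) z ∧ q.κ₁ * q.R / 8 ≤ jr d z := by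
  have h := sym (α := Unit) (q := fun _ => q) (d := fun _ => d) hF.e0 fun _ => hF
  refine ⟨h.1 (), h.2.1 (), h.2.2.1 (), fun z hz => ?_⟩
  have h1 := hF.r2_ge hz
  have h2 : q.κ₁ * q.R / 8 ≤ jr d z := by
    unfold jr
    rw [Real.le_sqrt' (by have := hF.R0; have := hF.κ0; positivity)]
    exact h1.le
  have h3 : 0 < q.κ₁ * q.R / 8 := by have := hF.R0; have := hF.κ0; positivity
  exact ⟨h3.trans_le h2, by nlinarith [sq_nonneg (q.κ₁ * q.R / 8)], h2⟩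

/-- The data of the weight. -/
theorem wf_far {R₁ : ℝ} (hF : Fk n ℓ q.κ₁ q.σ q.e₁ q d) (hP : PrF q.e₁ R₁) :
    WF (UL ℓ q.κ₁ q d) d.Φ (deriv d.Φ) (deriv (deriv d.Φ)) (SF q.e₁) (prL q.e₁) (SF2 q.e₁)
      d.Θ (deriv d.Θ) (deriv (deriv d.Θ)) (fun i j f r => q.D i j (f, r)) (uf d.l) (jr d)
      (fun z => d.l z.1) (fun z => d.l z.2) := by
  obtain ⟨su, sφ, sr, r0⟩ := sm_far hF
  have eφ : ∀ z ∈ UL ℓ q.κ₁ q d, uf d.l z + SF q.e₁ (jr d z) = jφ q d z := fun z hz =>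
    (jφ_eq z (r0 z hz).2.1).symm
  have sφ' : Sm (UL ℓ q.κ₁ q d) fun z => uf d.l z + SF q.e₁ (jr d z) := sφ.congr eφ
  have sS : Sm (UL ℓ q.κ₁ q d) fun z => SF q.e₁ (jr d z) :=
    (sφ.sub su).congr fun z hz => by rw [← eφ z hz]; ring
  have hsD : ∀ i j, Sm (UL ℓ q.κ₁ q d) fun z => q.D i j (uf d.l z + SF q.e₁ (jr d z), jr d z) :=
    fun i j => (hF.pk.sl.sm i j).comp (sφ'.prodMk sr) fun z hz => (r0 z hz).1
  have c1 : ∀ {f : ℝ → ℝ}, ContDiff ℝ ∞ f → ContDiff ℝ ∞ (deriv f) := fun h =>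
    (contDiff_infty_iff_deriv.1 h).2
  have d1 : ∀ {f : ℝ → ℝ}, ContDiff ℝ ∞ f → ∀ t, HasDerivAt f (deriv f t) t := fun h t =>
    (h.differentiable (by simp) t).hasDerivAt
  have hΦ := hF.pk.top.sm
  have hΘ := hF.pk.Θs
  have hl := hF.pk.lev.sm
  exact
    { w :=
        { cu := Cp.of su hΦ (c1 hΦ) (d1 hΦ) (d1 (c1 hΦ))
          cr :=
            { su := sr
              s0 := sS
              s1 := hP.smL.comp sr fun z hz => (r0 z hz).1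
              d1 := fun z hz => hP.dS1 (r0 z hz).1
              d2 := fun z hz => hP.dS2 (r0 z hz).1 }
          cD :=
            { sf := sφ'
              sr := sr
              s00 := hsD 0 0
              s10 := hsD 1 0
              s01 := hsD 0 1
              d := fun i j _ z hz => hF.pk.sl.hd i j (uf d.l z + SF q.e₁ (jr d z), jr d z)
                (r0 z hz).1 } }
      cx := Cp.of (hl.comp contDiff_fst).contDiffOn hΘ (c1 hΘ) (d1 hΘ) (d1 (c1 hΘ))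
      cy := Cp.of (hl.comp contDiff_snd).contDiffOn hΘ (c1 hΘ) (d1 hΘ) (d1 (c1 hΘ)) }

/-- The weight. -/
theorem W_wF (hF : Fk n 3 q.κ₁ q.σ q.e₁ q d) (hz : z ∈ UF q.κ₁ q d) :
    d.W q z = wF d.Φ (SF q.e₁) d.Θ (fun i j f r => q.D i j (f, r)) (uf d.l) (jr d)
      (fun z => d.l z.1) (fun z => d.l z.2) z := by
  obtain ⟨-, -, -, r0⟩ := sm_far hF
  rw [W_eq hF hz]
  unfold f0 tx ty wF H230.W.wt
  rw [jφ_eq z (r0 z hz).2.1]
  ring

/-- **The certificate of the far pairs.** -/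
theorem cert_pk {R₁ C : ℝ} (hF : Fk n 3 q.κ₁ q.σ q.e₁ q d) (hP : PrF q.e₁ R₁)
    (hR₁ : R₁ ≤ q.κ₁ * q.R / 8) (hC : 0 ≤ C) (hΦ1 : 0 ≤ deriv d.Φ (uf d.l z))
    (hz : z ∈ UF q.κ₁ q d) (hes : 9 * C * q.es ≤ 3 / 500 * (q.σ * q.κ₁))
    (ps : ∀ A : Fin n → ℝ, 0 ≤ ss d.sx A z) (pt : ∀ B : Fin n → ℝ, 0 ≤ ss d.sy B z)
    (hx : ∀ A B : Fin n → ℝ,
      1 / 50 * (q.σ / q.R) * ss d.sx A z ≤ TH d.sx d.sy (fun z : VV n => d.l z.1) z A B ∧
      1 / 50 * (q.σ / q.R) * ss d.sy B z ≤ TH d.sx d.sy (fun z : VV n => d.l z.2) z A B)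
    (hr : ∀ A B : Fin n → ℝ,
      |TH d.sx d.sy (jr d) z A B| ≤ C / (q.κ₁ * q.R) * (ss d.sx A z + ss d.sy B z) ∧
      -(1 / 200 * (q.σ / q.R) * (ss d.sx A z + ss d.sy B z)) ≤ TH d.sx d.sy (jr d) z A B ∧
      GA d.sx d.sy (jr d) z A B ^ 2 ≤ C * (ss d.sx A z + ss d.sy B z))
    (A B : Fin n → ℝ) :
    mX (1 / 100) q d z * ss d.sx A z + mY (1 / 100) q d z * ss d.sy B z ≤
      TH d.sx d.sy (d.W q) z A B := by
  obtain ⟨su, sφ, sr, r0⟩ := sm_far hF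
  obtain ⟨r1, r2, r3⟩ := r0 z hz
  have hR := hF.R0
  have hκ := hF.κ0
  have hσ := hF.σ0
  have hes0 := hF.s0
  have w := wf_far hF hP
  have ok := ok_x hF
  have ot := ok_y hF
  have eφ := jφ_eq (q := q) z r2
  have e1 : d.W q =ᶠ[𝓝 z] wF d.Φ (SF q.e₁) d.Θ (fun i j f r => q.D i j (f, r)) (uf d.l) (jr d)
      (fun z => d.l z.1) (fun z => d.l z.2) :=
    Filter.eventually_of_mem (hF.UF_open.mem_nhds hz) fun w hw => W_wF hF hw
  rw [TH_cg e1]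
  have Q := hF.pk.sl
  have hu : ∀ A B : Fin n → ℝ, 1 / 50 * (q.σ / q.R) * (ss d.sx A z + ss d.sy B z) ≤
      TH d.sx d.sy (uf d.l) z A B := fun A B => by
    have e2 : TH d.sx d.sy (uf d.l) z A B = TH d.sx d.sy (fun z : VV n => d.l z.1) z A B +
        TH d.sx d.sy (fun z : VV n => d.l z.2) z A B :=
      TH_add ok ot w.cx.su w.cy.su hz A B
    rw [e2]
    linarith [(hx A B).1, (hx A B).2]
  have hS : prL q.e₁ (jr d z) = 4 / 5 := by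
    rw [hP.L_far _ (hR₁.trans r3)]; rfl
  have hS2 : SF2 q.e₁ (jr d z) = 0 := by
    unfold SF2
    rw [hP.e_far _ (hR₁.trans r3)]; ring
  have small : prL q.e₁ (jr d z) * (1 / 200 * (q.σ / q.R)) + q.es * (C / (q.κ₁ * q.R)) +
      q.es * C / jr d z ≤ 1 / 50 * (q.σ / q.R) / 2 := by
    rw [hS]
    have h1 : q.es * C / jr d z ≤ q.es * C / (q.κ₁ * q.R / 8) := by gcongr
    have h2 : q.es * C / (q.κ₁ * q.R / 8) = 8 * (q.es * (C / (q.κ₁ * q.R))) := by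
      field_simp
    have h3 : 9 * (q.es * (C / (q.κ₁ * q.R))) ≤ 3 / 500 * (q.σ / q.R) := by
      have e3 : 9 * (q.es * (C / (q.κ₁ * q.R))) = (9 * C * q.es) / (q.κ₁ * q.R) := by
        field_simp
      rw [e3, div_le_iff₀ (by positivity)]
      calc 9 * C * q.es ≤ 3 / 500 * (q.σ * q.κ₁) := hes
        _ = 3 / 500 * (q.σ / q.R) * (q.κ₁ * q.R) := by field_simp
    linarith
  have key := cert_F (a := 1 / 50 * (q.σ / q.R)) (e := 1 / 200 * (q.σ / q.R))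
    (Cr := C / (q.κ₁ * q.R)) (Cg := C) (es := q.es) ok ot w hz ps pt hu (fun A B => (hx A B).1)
    (fun A B => (hx A B).2) (fun A B => (hr A B).1) (fun A B => (hr A B).2.1)
    (fun A B => (hr A B).2.2) hΦ1 (hF.pk.top.k0 _).le (hF.pk.Θd0 hR _) (hF.pk.Θcv hR _)
    (hF.pk.Θd0 hR _) (hF.pk.Θcv hR _) (by rw [hS]; norm_num) hS2 r1 (by positivity) hes0
    (Q.G_pos _ r1).le (Q.g_pos _ r1) (Q.mu _ r1) (Q.s0 _ r1) small A B
  rw [← eφ] at key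
  unfold mX mY nx ny H269.INF.nn
  convert key using 2 <;> ring

end pk

end Vale.Agent.P088.R2.H303.F
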