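import Vale.Agent.P088.R2.H303.F.Far
import Vale.Agent.P088.R2.H303.F.Cert
import Vale.Agent.P088.R2.H269.INF.Inst

/-!
# P088, stage 3, leaf iF: the rows
-/

open Set Filter
open scoped ContDiff Topology Matrix

noncomputable section

namespace Vale.Agent.P088.R2.H303.F

open Vale.Agent.P088.LR Vale.Agent.P088.HY Vale.Agent.P088.R2.H475
open Vale.Agent.P088.R2.H31.EP Vale.Agent.P088.R2.H404.INF Vale.Agent.P088.R2.H269.INF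
open Vale.Agent.P088.R2.H644.Ch Vale.Agent.P088.R2.H747.SW Vale.Agent.P088.R2.H230.W
open Vale.Agent.P088.R2.H768.FarJ

variable {n : ℕ}

/-- Row L: the convexity of the levels. -/
def RowL (n : ℕ) : Prop := EvC fun q => ∀ d : Pk n, PkOk q d →
  ∀ z ∈ UF q.κ₁ q d, ∀ A B : Fin n → ℝ,
    1 / 50 * (q.σ / q.R) * ss d.sx A z ≤ TH d.sx d.sy (fun z : VV n => d.l z.1) z A B ∧
    1 / 50 * (q.σ / q.R) * ss d.sy B z ≤ TH d.sx d.sy (fun z : VV n => d.l z.2) z A B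

/-- Row R: the Hessian form and the gradient of `r`. -/
def RowR (n : ℕ) : Prop := ∃ C : ℝ, 0 ≤ C ∧ ∀ e : ℝ, 0 < e → EvC fun q => ∀ d : Pk n, PkOk q d →
  ∀ z ∈ UF q.κ₁ q d, ∀ A B : Fin n → ℝ,
    |TH d.sx d.sy (jr d) z A B| ≤ C / (q.κ₁ * q.R) * (ss d.sx A z + ss d.sy B z) ∧
    -(e * (q.σ / q.R) * (ss d.sx A z + ss d.sy B z)) ≤ TH d.sx d.sy (jr d) z A B ∧
    GA d.sx d.sy (jr d) z A B ^ 2 ≤ C * (ss d.sx A z + ss d.sy B z)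

/-- Row G: the gain. -/
def RowG (n : ℕ) : Prop := EvC fun q => ∀ d : Pk n, PkOk q d → ∀ z ∈ OmP q d,
  1 / 100 * nx q d z ^ 2 ≤ d.sx.F (d.W q) z ∧ 1 / 100 * ny q d z ^ 2 ≤ d.sy.F (d.W q) z

/-- Row W: the first order term of the margin. -/
def RowW (n : ℕ) : Prop := ∀ e : ℝ, 0 < e → EvC fun q => ∀ d : Pk n, PkOk q d → ∀ z ∈ OmP q d,
  |nx q d z * d.sx.Λ (d.W q) z + d.sx.Γ (nx q d) (d.W q) z| ≤
    e * (nx q d z * d.sx.F (d.W q) z) ∧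
  |ny q d z * d.sy.Λ (d.W q) z + d.sy.Γ (ny q d) (d.W q) z| ≤
    e * (ny q d z * d.sy.F (d.W q) z)

/-- The margins. -/
def mX (c : ℝ) (q : Cst) (d : Pk n) (z : VV n) : ℝ := c * (q.σ / q.R) * nx q d z
def mY (c : ℝ) (q : Cst) (d : Pk n) (z : VV n) : ℝ := c * (q.σ / q.R) * ny q d z

/-- Row C: the terms of order three and four. -/
def RowC (n : ℕ) : Prop := ∀ c e : ℝ, 0 < c → 0 < e → EvC fun q => ∀ d : Pk n, PkOk q d →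
  ∀ z ∈ OmP q d, (∀ A B : Fin n → ℝ, mX c q d z * ss d.sx A z + mY c q d z * ss d.sy B z ≤
    TH d.sx d.sy (d.W q) z A B) →
    Cr d.sx d.sy (fun _ => 0) (fun _ => 0) (d.W q) (mX c q d z) (mY c q d z) e z

/-- Row U: the units. -/
def RowU (n : ℕ) : Prop := EvC fun q => ∀ d : Pk n, PkOk q d → ∀ z : VV n, ∀ A B : Fin n → ℝ,
  (∑ i, A i ^ 2 ≤ 2 * ss d.sx A z ∧ ∑ i, A i ^ 2 ≤ 2 * ss d.sy A z) ∧
  (∑ i, ∑ j, d.sx.s i j z * A i * B j) ^ 2 ≤ 2 ^ 2 * ((∑ i, A i ^ 2) * ∑ i, B i ^ 2) ∧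
  (∑ i, ∑ j, d.sy.s i j z * A i * B j) ^ 2 ≤ 2 ^ 2 * ((∑ i, A i ^ 2) * ∑ i, B i ^ 2)

end Vale.Agent.P088.R2.H303.F
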