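import Vale.Agent.P088.R2.H303.F.CerF
import Vale.Agent.P088.R2.H404.INF.RowL
import Vale.Agent.P088.R2.H269.INF.Ev

/-!
# P088, stage 3: the certificate of the weight without top part and retraction at far pairs
-/

open Set Filter
open scoped ContDiff Topology Matrix

noncomputable section

namespace Vale.Agent.P088.R2.H303.F

open Vale.Agent.P088.LR Vale.Agent.P088.HY Vale.Agent.P088.R2.H475 Vale.Agent.P088.R2.H464.Cu
open Vale.Agent.P088.R2.H31.EP Vale.Agent.P088.R2.H404.INF Vale.Agent.P088.R2.H269.INF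
open Vale.Agent.P088.R2.H644.Ch Vale.Agent.P088.R2.H747.SW Vale.Agent.P088.R2.H230.W
open Vale.Agent.P088.R2.H768.FarJ Vale.Agent.P088.R2.H961.GW Vale.Agent.P088.R2.H960.W

variable {n : ℕ} {q : Cst} {d : Pk n} {z : VV n} {ℓ : ℝ}

/-- The data of `W₀`. -/
theorem wf0 {R₁ : ℝ} (hF : Fk n ℓ q.κ₁ q.σ q.e₁ q d) (hP : PrF q.e₁ R₁) :
    WF (UL ℓ q.κ₁ q d) d.Φ (deriv d.Φ) (deriv (deriv d.Φ)) (SF q.e₁) (prL q.e₁) (SF2 q.e₁)
      (fun _ => 0) (fun _ => 0) (fun _ => 0) (fun i j f r => q.D i j (f, r)) (uf d.l) (jr d)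
      (fun z => d.l z.1) (fun z => d.l z.2) :=
  { w := (wf_far hF hP).w
    cx := Cp.of (wf_far hF hP).cx.su contDiff_const contDiff_const
      (fun t => hasDerivAt_const t 0) (fun t => hasDerivAt_const t 0)
    cy := Cp.of (wf_far hF hP).cy.su contDiff_const contDiff_const
      (fun t => hasDerivAt_const t 0) (fun t => hasDerivAt_const t 0) }

/-- The weight `W₀`. -/
theorem W0_wF (hF : Fk n ℓ q.κ₁ q.σ q.e₁ q d) (hz : z ∈ UL ℓ q.κ₁ q d) :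
    WW (d.F q) d.l (gi d.s₁) z = wF d.Φ (SF q.e₁) (fun _ => 0) (fun i j f r => q.D i j (f, r))
      (uf d.l) (jr d) (fun z => d.l z.1) (fun z => d.l z.2) z := by
  obtain ⟨-, -, -, r0⟩ := sm_far hF
  rw [W0_eq hF hz]
  unfold f0 wF H230.W.wt
  rw [jφ_eq z (r0 z hz).2.1]
  ring

/-- **The certificate of `W₀` at far pairs.** -/
theorem cert_W0 {R₁ C : ℝ} (hF : Fk n ℓ q.κ₁ q.σ q.e₁ q d) (hP : PrF q.e₁ R₁)
    (hR₁ : R₁ ≤ q.κ₁ * q.R / 8) (hC : 0 ≤ C) (hΦ1 : 0 ≤ deriv d.Φ (uf d.l z))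
    (hz : z ∈ UL ℓ q.κ₁ q d) (hes : 9 * C * q.es ≤ 3 / 500 * (q.σ * q.κ₁))
    (ps : ∀ A : Fin n → ℝ, 0 ≤ ss d.sx A z) (pt : ∀ B : Fin n → ℝ, 0 ≤ ss d.sy B z)
    (hx : ∀ A B : Fin n → ℝ,
      1 / 50 * (q.σ / q.R) * ss d.sx A z ≤ TH d.sx d.sy (fun z : VV n => d.l z.1) z A B ∧
      1 / 50 * (q.σ / q.R) * ss d.sy B z ≤ TH d.sx d.sy (fun z : VV n => d.l z.2) z A B)
    (hr : ∀ A B : Fin n → ℝ,
      |TH d.sx d.sy (jr d) z A B| ≤ C / (q.κ₁ * q.R) * (ss d.sx A z + ss d.sy B z) ∧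
      -(1 / 200 * (q.σ / q.R) * (ss d.sx A z + ss d.sy B z)) ≤ TH d.sx d.sy (jr d) z A B ∧
      GA d.sx d.sy (jr d) z A B ^ 2 ≤ C * (ss d.sx A z + ss d.sy B z))
    (A B : Fin n → ℝ) :
    1 / 100 * (q.σ / q.R) * H269.INF.nn q d z * (ss d.sx A z + ss d.sy B z) ≤
      TH d.sx d.sy (WW (d.F q) d.l (gi d.s₁)) z A B := by
  obtain ⟨su, sφ, sr, r0⟩ := sm_far hF
  obtain ⟨r1, r2, r3⟩ := r0 z hz
  have hR := hF.R0
  have hκ := hF.κ0
  have hσ := hF.σ0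
  have hes0 := hF.s0
  have w := wf0 hF hP
  have ok := ok_x hF
  have ot := ok_y hF
  have eφ := jφ_eq (q := q) z r2
  have e1 : WW (d.F q) d.l (gi d.s₁) =ᶠ[𝓝 z] wF d.Φ (SF q.e₁) (fun _ => 0)
      (fun i j f r => q.D i j (f, r)) (uf d.l) (jr d)
      (fun z => d.l z.1) (fun z => d.l z.2) :=
    Filter.eventually_of_mem (hF.UF_open.mem_nhds hz) fun w hw => W0_wF hF hw
  rw [TH_cg e1]
  have Q := hF.pk.sl
  have hu : ∀ A B : Fin n → ℝ, 1 / 50 * (q.σ / q.R) * (ss d.sx A z + ss d.sy B z) ≤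
      TH d.sx d.sy (uf d.l) z A B := fun A B => by
    have e2 : TH d.sx d.sy (uf d.l) z A B = TH d.sx d.sy (fun z : VV n => d.l z.1) z A B +
        TH d.sx d.sy (fun z : VV n => d.l z.2) z A B :=
      TH_add ok ot w.cx.su w.cy.su hz A B
    rw [e2]
    linarith [(hx A B).1, (hx A B).2]
  have hS : prL q.e₁ (jr d z) = 4 / 5 := by
    rw [hP.L_far _ (hR₁.trans r3)]; rfl
  have hS2 : SF2 q.e₁ (jr d z) = 0 := by
    unfold SF2
    rw [hP.e_far _ (hR₁.trans r3)]; ring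
  have small : prL q.e₁ (jr d z) * (1 / 200 * (q.σ / q.R)) + q.es * (C / (q.κ₁ * q.R)) +
      q.es * C / jr d z ≤ 1 / 50 * (q.σ / q.R) / 2 := by
    rw [hS]
    have h1 : q.es * C / jr d z ≤ q.es * C / (q.κ₁ * q.R / 8) := by gcongr
    have h2 : q.es * C / (q.κ₁ * q.R / 8) = 8 * (q.es * (C / (q.κ₁ * q.R))) := by
      field_simp
    have h3 : 9 * (q.es * (C / (q.κ₁ * q.R))) ≤ 3 / 500 * (q.σ / q.R) := by
      have e3 : 9 * (q.es * (C / (q.κ₁ * q.R))) = (9 * C * q.es) / (q.κ₁ * q.R) := by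
        field_simp
      rw [e3, div_le_iff₀ (by positivity)]
      calc 9 * C * q.es ≤ 3 / 500 * (q.σ * q.κ₁) := hes
        _ = 3 / 500 * (q.σ / q.R) * (q.κ₁ * q.R) := by field_simp
    linarith
  have key := cert_F (a := 1 / 50 * (q.σ / q.R)) (e := 1 / 200 * (q.σ / q.R))
    (Cr := C / (q.κ₁ * q.R)) (Cg := C) (es := q.es) ok ot w hz ps pt hu (fun A B => (hx A B).1)
    (fun A B => (hx A B).2) (fun A B => (hr A B).1) (fun A B => (hr A B).2.1)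
    (fun A B => (hr A B).2.2) hΦ1 (hF.pk.top.k0 _).le le_rfl le_rfl
    le_rfl le_rfl (by rw [hS]; norm_num) hS2 r1 (by positivity) hes0
    (Q.G_pos _ r1).le (Q.g_pos _ r1) (Q.mu _ r1) (Q.s0 _ r1) small A B
  rw [← eφ] at key
  unfold H269.INF.nn
  refine le_trans (le_of_eq ?_) key
  ring

end Vale.Agent.P088.R2.H303.F
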