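import Vale.Agent.P088.R2.H303.F.Spec

/-!
# P088, stage 3, leaf iF: the units
-/

open Set Filter
open scoped ContDiff Topology Matrix

noncomputable section

namespace Vale.Agent.P088.R2.H303.F

open Vale.Agent.P088.LR Vale.Agent.P088.HY
open Vale.Agent.P088.R2.H31.EP Vale.Agent.P088.R2.H747.SW Vale.Agent.P088.R2.H657.W

variable {n : ℕ}

/-- `(∑ |a|)² ≤ n ∑ a²`. -/
theorem sum_abs_sq (a : Fin n → ℝ) : (∑ i, |a i|) ^ 2 ≤ n * ∑ i, a i ^ 2 := by
  have h := sq_sum_le_card_mul_sum_sq (s := (Finset.univ : Finset (Fin n))) (f := fun i => |a i|)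
  simpa using h

/-- A matrix near `1`. -/
theorem near_one {s : Fin n → Fin n → ℝ} {e : ℝ}
    (h : ∀ i j, |s i j - (1 : Matrix (Fin n) (Fin n) ℝ) i j| ≤ e) (A B : Fin n → ℝ) :
    |(∑ i, ∑ j, s i j * A i * B j) - ∑ i, A i * B i| ≤ e * ((∑ i, |A i|) * ∑ j, |B j|) := by
  have e1 : ∑ i, A i * B i = ∑ i, ∑ j, (1 : Matrix (Fin n) (Fin n) ℝ) i j * A i * B j := by
    refine Finset.sum_congr rfl fun i _ => ?_
    rw [Finset.sum_eq_single i]
    · simp
    · intro j _ hj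
      rw [Matrix.one_apply_ne (Ne.symm hj)]
      ring
    · intro hi
      exact absurd (Finset.mem_univ i) hi
  rw [e1, ← Finset.sum_sub_distrib]
  simp only [← Finset.sum_sub_distrib]
  rw [Finset.sum_mul_sum, Finset.mul_sum]
  refine (Finset.abs_sum_le_sum_abs _ _).trans (Finset.sum_le_sum fun i _ => ?_)
  rw [Finset.mul_sum]
  refine (Finset.abs_sum_le_sum_abs _ _).trans (Finset.sum_le_sum fun j _ => ?_)
  have e2 : s i j * A i * B j - (1 : Matrix (Fin n) (Fin n) ℝ) i j * A i * B j =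
      (s i j - (1 : Matrix (Fin n) (Fin n) ℝ) i j) * (A i * B j) := by ring
  rw [e2, abs_mul, abs_mul]
  exact mul_le_mul_of_nonneg_right (h i j) (by positivity)

/-- The units of a matrix near `1`. -/
theorem near_unit {s : Fin n → Fin n → ℝ} {e : ℝ} (he : 0 ≤ e) (hn : n * e ≤ 1 / 2)
    (h : ∀ i j, |s i j - (1 : Matrix (Fin n) (Fin n) ℝ) i j| ≤ e) (A B : Fin n → ℝ) :
    ∑ i, A i ^ 2 ≤ 2 * ∑ i, ∑ j, s i j * A i * A j ∧
    (∑ i, ∑ j, s i j * A i * B j) ^ 2 ≤ 2 ^ 2 * ((∑ i, A i ^ 2) * ∑ i, B i ^ 2) := by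
  have hA : 0 ≤ ∑ i, A i ^ 2 := Finset.sum_nonneg fun _ _ => sq_nonneg _
  have hB : 0 ≤ ∑ i, B i ^ 2 := Finset.sum_nonneg fun _ _ => sq_nonneg _
  constructor
  · have h1 := (abs_le.1 (near_one h A A)).1
    have h2 := sum_abs_sq A
    have e1 : ∑ i, A i * A i = ∑ i, A i ^ 2 := Finset.sum_congr rfl fun i _ => by ring
    rw [e1] at h1
    have h3 : e * ((∑ i, |A i|) * ∑ j, |A j|) ≤ 1 / 2 * ∑ i, A i ^ 2 := by
      calc e * ((∑ i, |A i|) * ∑ j, |A j|) = e * (∑ i, |A i|) ^ 2 := by ring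
        _ ≤ e * (n * ∑ i, A i ^ 2) := mul_le_mul_of_nonneg_left h2 he
        _ = n * e * ∑ i, A i ^ 2 := by ring
        _ ≤ 1 / 2 * ∑ i, A i ^ 2 := mul_le_mul_of_nonneg_right hn hA
    linarith
  · have h1 := near_one h A B
    have h2 := sum_abs_sq A
    have h3 := sum_abs_sq B
    have h4 : (∑ i, A i * B i) ^ 2 ≤ (∑ i, A i ^ 2) * ∑ i, B i ^ 2 :=
      Finset.sum_mul_sq_le_sq_mul_sq _ _ _
    set P := ∑ i, A i ^ 2
    set Q := ∑ i, B i ^ 2
    set X := ∑ i, ∑ j, s i j * A i * B j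
    set Y := ∑ i, A i * B i
    set a := ∑ i, |A i| with ha
    set b := ∑ i, |B i| with hb
    have a0 : 0 ≤ a := Finset.sum_nonneg fun _ _ => abs_nonneg _
    have b0 : 0 ≤ b := Finset.sum_nonneg fun _ _ => abs_nonneg _
    have h5 : (e * (a * b)) ^ 2 ≤ 1 / 4 * (P * Q) := by
      calc (e * (a * b)) ^ 2 = e ^ 2 * (a ^ 2 * b ^ 2) := by ring
        _ ≤ e ^ 2 * ((n * P) * (n * Q)) :=
          mul_le_mul_of_nonneg_left (mul_le_mul h2 h3 (sq_nonneg _) (by positivity)) (sq_nonneg _)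
        _ = (n * e) ^ 2 * (P * Q) := by ring
        _ ≤ (1 / 2) ^ 2 * (P * Q) := by
          refine mul_le_mul_of_nonneg_right (pow_le_pow_left₀ (by positivity) hn 2) (by positivity)
        _ = _ := by ring
    have h6 : (X - Y) ^ 2 ≤ 1 / 4 * (P * Q) := by
      refine le_trans ?_ h5
      rw [← sq_abs (X - Y)]
      exact pow_le_pow_left₀ (abs_nonneg _) h1 2
    have h7 : X ^ 2 ≤ 2 * Y ^ 2 + 2 * (X - Y) ^ 2 := by nlinarith [sq_nonneg (Y - (X - Y))]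
    nlinarith [mul_nonneg hA hB]

/-- **Row U.** -/
theorem rowU (n : ℕ) : RowU n := by
  have h1 : EvC fun q => n * q.ε ≤ 1 / 2 := by
    refine EvC.at_ε (fun _ t => n * t ≤ 1 / 2) fun _ => ?_
    have : (0 : ℝ) < 1 / (2 * (n + 1)) := by positivity
    refine ev_sml this fun t h0 ht => ?_
    rw [le_div_iff₀ (by positivity)] at ht
    nlinarith
  refine (h1.and EvC.pos).mono fun q hq d h z A B => ?_
  have he : 0 ≤ q.ε := hq.2.2.2.2.2.1.le
  have b1 : ∀ i j, |d.s₁ z.1 i j - (1 : Matrix (Fin n) (Fin n) ℝ) i j| ≤ q.ε := fun i j => by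
    have := (H657.W.Rg.t1 h.rg).cl i j 0 (by norm_num) z.1
    simpa using this
  have b2 : ∀ i j, |d.s₂ z.2 i j - (1 : Matrix (Fin n) (Fin n) ℝ) i j| ≤ q.ε := fun i j => by
    have := (H657.W.Rg.t2 h.rg).cl i j 0 (by norm_num) z.2
    simpa using this
  obtain ⟨u1, u2⟩ := near_unit he hq.1 b1 A B
  obtain ⟨v1, v2⟩ := near_unit he hq.1 b2 A B
  exact ⟨⟨u1, v1⟩, u2, v2⟩

end Vale.Agent.P088.R2.H303.F
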