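import Vale.Agent.P088.R2.H303.F.CerF
import Vale.Agent.P088.R2.H303.F.Uni
import Vale.Agent.P088.R2.H509.EP.Lit2

/-!
# P088, stage 3, leaf iF: the zone theorem from the rows
-/

open Set Filter MeasureTheory
open scoped ContDiff Topology Matrix

noncomputable section

namespace Vale.Agent.P088.R2.H303.F

open Vale.Agent.P088.LR Vale.Agent.P088.HY Vale.Agent.P088.R2.H475 Vale.Agent.P088.R2.H464.Cu
open Vale.Agent.P088.R2.H31.EP Vale.Agent.P088.R2.H404.INF Vale.Agent.P088.R2.H269.INF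
open Vale.Agent.P088.R2.H644.Ch Vale.Agent.P088.R2.H747.SW Vale.Agent.P088.R2.H230.W
open Vale.Agent.P088.R2.H768.FarJ Vale.Agent.P088.R2.H961.GW Vale.Agent.P088.R2.H960.W

variable {n : ℕ} {q : Cst} {d : Pk n} {z : VV n} {ℓ κ σ e₁ : ℝ}

theorem okx_univ (h : Fk n ℓ κ σ e₁ q d) : d.sx.Ok univ (fun _ => 1) := by
  have := okx (fr0 h.tr.sm h.tr.sy) (fr0 h.tr'.sm h.tr'.sy) isOpen_univ
    (U := univ) (fun z _ => ⟨mem_univ _, mem_univ _⟩)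
  rwa [tht_one] at this

theorem oky_univ (h : Fk n ℓ κ σ e₁ q d) : d.sy.Ok univ (fun _ => 1) := by
  have := oky (fr0 h.tr.sm h.tr.sy) (fr0 h.tr'.sm h.tr'.sy) isOpen_univ
    (U := univ) (fun z _ => ⟨mem_univ _, mem_univ _⟩)
  rwa [tht_one] at this

theorem G_cm {E ι : Type*} [NormedAddCommGroup E] [NormedSpace ℝ E] [Fintype ι] (σ : Sl E ι)
    (c : ℝ) (f g : E → ℝ) (z : E) : σ.Γ (fun z => c * f z) g z = c * σ.Γ f g z := by
  unfold Sl.Γ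
  rw [Finset.mul_sum]
  refine Finset.sum_congr rfl fun i _ => ?_
  rw [Finset.mul_sum]
  refine Finset.sum_congr rfl fun j _ => ?_
  have : σ.D i (fun z => c * f z) z = c * σ.D i f z := by
    have e : fderiv ℝ (fun z => c * f z) z = c • fderiv ℝ f z := by
      have e1 : (fun z => c * f z) = c • f := by
        funext z; simp
      rw [e1, fderiv_const_smul_field]
      rfl
    simp only [Sl.D, e, _root_.smul_apply, smul_eq_mul]
    ring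
  rw [this]
  ring

/-- The sizes are smooth. -/
theorem sm_n (hF : Fk n 3 q.κ₁ q.σ q.e₁ q d) :
    Sm (UF q.κ₁ q d) (nx q d) ∧ Sm (UF q.κ₁ q d) (ny q d) := by
  obtain ⟨R₁, hP⟩ := prf_ex hF.e0
  have w := wf_far hF hP
  obtain ⟨-, -, -, r0⟩ := sm_far hF
  have h1 : Sm (UF q.κ₁ q d) (H269.INF.nn q d) := by
    refine (w.w.cu.s1.add w.w.cD.s10).congr fun z hz => ?_
    unfold H269.INF.nn
    rw [jφ_eq z (r0 z hz).2.1]
  exact ⟨h1.add w.cx.s1, h1.add w.cy.s1⟩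

/-- The rows at one package. -/
structure RwF (C : ℝ) (q : Cst) (d : Pk n) : Prop where
  hq : InfC q
  fk : Fk n 3 q.κ₁ q.σ q.e₁ q d
  sm : LitSm q d
  C0 : 0 ≤ C
  R₁ : ∃ R₁, PrF q.e₁ R₁ ∧ R₁ ≤ q.κ₁ * q.R / 8
  es : 9 * C * q.es ≤ 3 / 500 * (q.σ * q.κ₁)
  M : ∀ z ∈ OmP q d, q.M₀ ≤ deriv d.Φ (uf d.l z)
  L : ∀ z ∈ UF q.κ₁ q d, ∀ A B : Fin n → ℝ,
    1 / 50 * (q.σ / q.R) * ss d.sx A z ≤ TH d.sx d.sy (fun z : VV n => d.l z.1) z A B ∧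
    1 / 50 * (q.σ / q.R) * ss d.sy B z ≤ TH d.sx d.sy (fun z : VV n => d.l z.2) z A B
  R : ∀ z ∈ UF q.κ₁ q d, ∀ A B : Fin n → ℝ,
    |TH d.sx d.sy (jr d) z A B| ≤ C / (q.κ₁ * q.R) * (ss d.sx A z + ss d.sy B z) ∧
    -(1 / 200 * (q.σ / q.R) * (ss d.sx A z + ss d.sy B z)) ≤ TH d.sx d.sy (jr d) z A B ∧
    GA d.sx d.sy (jr d) z A B ^ 2 ≤ C * (ss d.sx A z + ss d.sy B z)
  W : ∀ z ∈ OmP q d,
    |nx q d z * d.sx.Λ (d.W q) z + d.sx.Γ (nx q d) (d.W q) z| ≤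
      1 / 200 * (nx q d z * d.sx.F (d.W q) z) ∧
    |ny q d z * d.sy.Λ (d.W q) z + d.sy.Γ (ny q d) (d.W q) z| ≤
      1 / 200 * (ny q d z * d.sy.F (d.W q) z)
  Cc : ∀ z ∈ OmP q d, (∀ A B : Fin n → ℝ, mX (1 / 100) q d z * ss d.sx A z +
    mY (1 / 100) q d z * ss d.sy B z ≤ TH d.sx d.sy (d.W q) z A B) →
    Cr d.sx d.sy (fun _ => 0) (fun _ => 0) (d.W q) (mX (1 / 100) q d z) (mY (1 / 100) q d z)
      (1 / 12000) z
  U : ∀ z : VV n, ∀ A B : Fin n → ℝ,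
    (∑ i, A i ^ 2 ≤ 2 * ss d.sx A z ∧ ∑ i, A i ^ 2 ≤ 2 * ss d.sy A z) ∧
    (∑ i, ∑ j, d.sx.s i j z * A i * B j) ^ 2 ≤ 2 ^ 2 * ((∑ i, A i ^ 2) * ∑ i, B i ^ 2) ∧
    (∑ i, ∑ j, d.sy.s i j z * A i * B j) ^ 2 ≤ 2 ^ 2 * ((∑ i, A i ^ 2) * ∑ i, B i ^ 2)

/-- The sizes are at least `M₀`. -/
theorem RwF.n0 {C : ℝ} (r : RwF C q d) (hz : z ∈ OmP q d) : q.M₀ ≤ nx q d z ∧ q.M₀ ≤ ny q d z := by
  have h1 := r.M z hz
  obtain ⟨-, -, -, r0⟩ := sm_far r.fk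
  have h2 := (r.fk.pk.sl.G_pos (jφ q d z, jr d z) (r0 z hz.1).1).le
  have h3 := r.fk.pk.Θd0 r.fk.R0 (d.l z.1)
  have h4 := r.fk.pk.Θd0 r.fk.R0 (d.l z.2)
  unfold nx ny H269.INF.nn
  constructor <;> linarith

/-- **The zone theorem of the far pairs, at one package.** -/
theorem RwF.zone {C : ℝ} (r : RwF C q d) {χ : VV n → ℝ} (hχ : ContDiff ℝ ∞ χ)
    (h0 : ∀ z, χ z ≠ 0 → FarOk q.κ₁ q.σ q.R (d.l₀ q) (H475.gg n q.σ) d.l z) :
    d.Zone q χ ((MU d.sx d.sy (d.W q) (mX (1 / 100) q d) (mY (1 / 100) q d) (1 / 200)).sm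
      fun z => χ z ^ 2) (coU d.sx d.sy (mX (1 / 100) q d) (mY (1 / 100) q d) χ (1 / 200)) := by
  have h := r.fk.pk
  have hL := lvG r.hq h
  have hR := r.fk.R0
  have hσ := r.fk.σ0
  have ok := okx_univ r.fk
  have ot := oky_univ r.fk
  have hW : Sm univ (d.W q) :=
    (WT_smooth h.ok h.Θs h.ret.sm h.lev.sm r.sm.g).contDiffOn
  have hO := OmP_open h hR
  have hM1 := r.fk.M1
  obtain ⟨R₁, hP, hR₁⟩ := r.R₁
  have c0 : 0 ≤ 1 / 100 * (q.σ / q.R) := by positivity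
  have ps : ∀ z : VV n, ∀ A : Fin n → ℝ, 0 ≤ ss d.sx A z := fun z A => by
    have := (r.U z A A).1.1
    have h2 : 0 ≤ ∑ i, A i ^ 2 := Finset.sum_nonneg fun _ _ => sq_nonneg _
    linarith
  have pt : ∀ z : VV n, ∀ A : Fin n → ℝ, 0 ≤ ss d.sy A z := fun z A => by
    have := (r.U z A A).1.2
    have h2 : 0 ≤ ∑ i, A i ^ 2 := Finset.sum_nonneg fun _ _ => sq_nonneg _
    linarith
  obtain ⟨sn1, sn2⟩ := sm_n r.fk
  have cert : ∀ z ∈ OmP q d, ∀ A B : Fin n → ℝ,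
      mX (1 / 100) q d z * ss d.sx A z + mY (1 / 100) q d z * ss d.sy B z ≤
        TH d.sx d.sy (d.W q) z A B := fun z hz =>
    cert_pk r.fk hP hR₁ r.C0 (by linarith [r.M z hz]) hz.1 r.es (ps z) (pt z) (r.L z hz.1)
      (r.R z hz.1)
  refine zoneU (Ω := OmP q d)
    (S := {z | FarOk q.κ₁ q.σ q.R (d.l₀ q) (H475.gg n q.σ) d.l z}) ok ot contDiffOn_const
    contDiffOn_const hW hχ.contDiffOn hO (subset_univ _) (closed_far hL)
    (fun z hz => far_OmP r.hq hz.2 h) (fun z _ hz => ?_)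
    (contDiffOn_const.mul (sn1.mono fun z hz => hz.1))
    (contDiffOn_const.mul (sn2.mono fun z hz => hz.1)) (by norm_num) (by norm_num) le_rfl le_rfl
    (K := 2) (by norm_num) (by norm_num) (fun z hz => ?_) (fun z hz => ?_)
    (fun z hz A B x y => ?_)
  · by_contra hc
    exact hz (h0 z hc)
  · obtain ⟨n1, n2⟩ := r.n0 hz
    refine ⟨mul_nonneg c0 (by linarith), fun A => (r.U z A A).1.1, fun A B => (r.U z A B).2.1, ?_⟩
    have h1 := (r.W z hz).1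
    have e : (mX (1 / 100) q d : VV n → ℝ) = fun z => 1 / 100 * (q.σ / q.R) * nx q d z := rfl
    rw [e, G_cm]
    have h2 := mul_le_mul_of_nonneg_left h1 c0
    rw [← abs_of_nonneg c0, ← abs_mul, abs_of_nonneg c0] at h2
    calc |1 / 100 * (q.σ / q.R) * nx q d z * d.sx.Λ (d.W q) z +
          1 / 100 * (q.σ / q.R) * d.sx.Γ (nx q d) (d.W q) z|
        = |1 / 100 * (q.σ / q.R) * (nx q d z * d.sx.Λ (d.W q) z +
            d.sx.Γ (nx q d) (d.W q) z)| := by ring_nf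
      _ ≤ _ := h2
      _ = _ := by ring
  · obtain ⟨n1, n2⟩ := r.n0 hz
    refine ⟨mul_nonneg c0 (by linarith), fun A => (r.U z A A).1.2, fun A B => (r.U z A B).2.2, ?_⟩
    have h1 := (r.W z hz).2
    have e : (mY (1 / 100) q d : VV n → ℝ) = fun z => 1 / 100 * (q.σ / q.R) * ny q d z := rfl
    rw [e, G_cm]
    have h2 := mul_le_mul_of_nonneg_left h1 c0
    rw [← abs_of_nonneg c0, ← abs_mul, abs_of_nonneg c0] at h2
    calc |1 / 100 * (q.σ / q.R) * ny q d z * d.sy.Λ (d.W q) z +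
          1 / 100 * (q.σ / q.R) * d.sy.Γ (ny q d) (d.W q) z|
        = |1 / 100 * (q.σ / q.R) * (ny q d z * d.sy.Λ (d.W q) z +
            d.sy.Γ (ny q d) (d.W q) z)| := by ring_nf
      _ ≤ _ := h2
      _ = _ := by ring
  · obtain ⟨n1, n2⟩ := r.n0 hz
    exact Cr.tot (ε := 1 / 12000) (by norm_num) (by norm_num) (mul_nonneg c0 (by linarith))
      (mul_nonneg c0 (by linarith)) (fun i j => ok.sy i j z) (fun i j => ot.sy i j z)
      (ps z) (pt z) (r.Cc z hz (cert z hz)) A B x y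

theorem ev_R₁ : EvC fun q => 0 < q.e₁ → 0 < q.κ₁ → ∃ R₁, PrF q.e₁ R₁ ∧ R₁ ≤ q.κ₁ * q.R / 8 := by
  refine EvC.at_R (fun q t => 0 < q.e₁ → 0 < q.κ₁ → ∃ R₁, PrF q.e₁ R₁ ∧ R₁ ≤ q.κ₁ * t / 8)
    fun q => ?_
  by_cases h : 0 < q.e₁ ∧ 0 < q.κ₁
  · obtain ⟨h1, h2⟩ := h
    obtain ⟨R₁, hP⟩ := prf_ex h1
    refine ev_top (8 * R₁ / q.κ₁) fun t ht _ _ => ⟨R₁, hP, ?_⟩
    rw [div_le_iff₀ h2] at ht
    linarith
  · exact Eventually.of_forall fun t a b => absurd ⟨a, b⟩ h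

theorem ev_es {C : ℝ} (hC : 0 ≤ C) : EvC fun q => 9 * C * q.es ≤ 3 / 500 * (q.σ * q.κ₁) := by
  have h : EvC fun q => 0 < q.σ → 0 < q.κ₁ → 9 * C * q.es ≤ 3 / 500 * (q.σ * q.κ₁) := by
    refine EvC.at_es (fun q t => 0 < q.σ → 0 < q.κ₁ → 9 * C * t ≤ 3 / 500 * (q.σ * q.κ₁))
      fun q => ?_
    by_cases h : 0 < q.σ ∧ 0 < q.κ₁
    · obtain ⟨h1, h2⟩ := h
      refine ev_sml (a := 3 / 500 * (q.σ * q.κ₁) / (9 * C + 1)) (by positivity)
        fun t h0 ht _ _ => ?_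
      rw [le_div_iff₀ (by positivity)] at ht
      nlinarith
    · exact Eventually.of_forall fun t a b => absurd ⟨a, b⟩ h
  refine (h.and EvC.pos).mono fun q hq => hq.1 hq.2.2.1.2.1 hq.2.2.1.1

/-- **The zone theorem of the leaf iF from the rows.** -/
theorem zone_of {n : ℕ}
    (hFk : EvC fun q => ∀ d : Pk n, PkOk q d → Fk n 3 q.κ₁ q.σ q.e₁ q d)
    (hL : RowL n) (hR : RowR n) (hW : RowW n) (hC : RowC n) :
    ZoneThm n (fun q d => d.ch q .iF)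
      (fun q d => (MU d.sx d.sy (d.W q) (mX (1 / 100) q d) (mY (1 / 100) q d) (1 / 200)).sm
        fun z => d.ch q .iF z ^ 2)
      (fun q d => coU d.sx d.sy (mX (1 / 100) q d) (mY (1 / 100) q d) (d.ch q .iF) (1 / 200)) := by
  obtain ⟨C, C0, hR⟩ := hR
  have hR' := hR (1 / 200) (by norm_num)
  have hW' := hW (1 / 200) (by norm_num)
  have hC' := hC (1 / 100) (1 / 12000) (by norm_num) (by norm_num)
  refine ((((evInf.and hFk).and ((EvC.litSm n).and ev_R₁)).and ((ev_es C0).and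
    (hL.and hR'))).and ((hW'.and hC').and ((rowU n).and EvC.pos))).mono ?_
  rintro q ⟨⟨⟨⟨a1, a2⟩, a3, a4⟩, a5, a7, a8⟩, ⟨a9, a10⟩, a11, a12⟩ d h
  have r : RwF C q d :=
    { hq := a1
      fk := a2 d h
      sm := a3 d h
      C0 := C0
      R₁ := a4 a12.1.2.1 a12.2.1.1
      es := a5
      M := fun z _ => H31.EP.PkOk.N_ge h _
      L := a7 d h
      R := a8 d h
      W := a9 d h
      Cc := a10 d h
      U := a11 d h }
  exact r.zone ((a3 d h).ch .iF) fun z hz => far_supp a1 h (subset_tsupport _ hz)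

end Vale.Agent.P088.R2.H303.F
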