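import Vale.Agent.P088.R2.H303.F.Cer0
import Vale.Agent.P088.R2.H303.F.Uni
import Vale.Agent.P088.R2.H303.F.Zf
import Vale.Agent.P088.R2.H271.F.RowR

/-!
# P088, stage 3: the certificate of `W₀` at far pairs, for suitably chosen constants
-/

open Set Filter
open scoped ContDiff Topology Matrix

noncomputable section

namespace Vale.Agent.P088.R2.H303.F

open Vale.Agent.P088.LR Vale.Agent.P088.HY Vale.Agent.P088.R2.H475 Vale.Agent.P088.R2.H464.Cu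
open Vale.Agent.P088.R2.H31.EP Vale.Agent.P088.R2.H404.INF Vale.Agent.P088.R2.H269.INF
open Vale.Agent.P088.R2.H644.Ch Vale.Agent.P088.R2.H747.SW Vale.Agent.P088.R2.H230.W
open Vale.Agent.P088.R2.H768.FarJ Vale.Agent.P088.R2.H657.W Vale.Agent.P088.R2.H271.F

variable {n : ℕ}

/-- Row R on the larger set (helper271's proof). -/
theorem rowRl (hn : 1 ≤ n) {ℓ : ℝ} (hℓ : ℓ ≤ 5) {e : ℝ} (he : 0 < e) :
    EvC fun q => ∀ d : Pk n, PkOk q d → ∀ z ∈ UL ℓ q.κ₁ q d, ∀ A B : Fin n → ℝ,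
      |TH d.sx d.sy (jr d) z A B| ≤ cR n / (q.κ₁ * q.R) * (ss d.sx A z + ss d.sy B z) ∧
      -(e * (q.σ / q.R) * (ss d.sx A z + ss d.sy B z)) ≤ TH d.sx d.sy (jr d) z A B ∧
      GA d.sx d.sy (jr d) z A B ^ 2 ≤ cR n * (ss d.sx A z + ss d.sy B z) := by
  have g0 : 0 < cR n := by unfold cR; positivity
  have c0 := cG_nn n 12
  have h1 : EvC fun q => 0 < q.σ → (n : ℝ) * ((1 + cG n 12) * q.ε) ≤ 1 / 2 ∧
      (1 + cG n 12) * q.ε ≤ 1 ∧ 6 / q.σ * ((1 + cG n 12) * q.ε) ≤ 1 ∧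
      cR n * (6 / q.σ * ((1 + cG n 12) * q.ε)) ≤ e * q.σ := by
    refine EvC.at_ε (fun q t => 0 < q.σ → (n : ℝ) * ((1 + cG n 12) * t) ≤ 1 / 2 ∧
      (1 + cG n 12) * t ≤ 1 ∧ 6 / q.σ * ((1 + cG n 12) * t) ≤ 1 ∧
      cR n * (6 / q.σ * ((1 + cG n 12) * t)) ≤ e * q.σ) fun q => ?_
    by_cases hq : 0 < q.σ
    · filter_upwards [ev_small (c := (n : ℝ) * (1 + cG n 12)) (a := 1 / 2) (by norm_num),
        ev_small (c := (1 + cG n 12)) (a := 1) one_pos,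
        ev_small (c := 6 / q.σ * (1 + cG n 12)) (a := 1) one_pos,
        ev_small (c := cR n * (6 / q.σ * (1 + cG n 12))) (a := e * q.σ) (by positivity)] with
        t a1 a2 a3 a4 _
      exact ⟨by linarith, a2, by linarith, by linarith⟩
    · exact Eventually.of_forall fun _ a => absurd a hq
  refine ((ev_Fk hn hℓ).and h1).mono fun q hq d hd z hz A B => ?_
  have F := hq.1 d hd
  obtain ⟨k1, k2, k3, k4⟩ := hq.2 F.σ0
  have hR0 := F.R0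
  have e0 := F.ε0
  have i0 : 0 ≤ q.R⁻¹ := inv_nonneg.2 hR0.le
  have l1 : q.ε ≤ (1 + cG n 12) * q.ε := by
    have := mul_nonneg c0 e0
    linarith
  have l2 : cG n 12 * q.ε ≤ (1 + cG n 12) * q.ε := by linarith
  have up : ∀ {t : ℝ} {s : MF n}, t ≤ (1 + cG n 12) * q.ε → Nr univ t (t * q.R⁻¹) (t * q.R⁻¹ ^ 2) s →
      Nr univ ((1 + cG n 12) * q.ε) ((1 + cG n 12) * q.ε * q.R⁻¹)
        ((1 + cG n 12) * q.ε * q.R⁻¹ ^ 2) s := fun ht h =>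
    nr_mono h ht (mul_le_mul_of_nonneg_right ht i0)
      (mul_le_mul_of_nonneg_right ht (pow_nonneg i0 2))
  have n1 := up l1 (F.tr.nr (by norm_num) univ)
  have n2 := up l1 (F.tr'.nr (by norm_num) univ)
  have ng := up l2 ((F.tr.inv hR0 F.ε1 F.ε2).nr (by norm_num) univ)
  have hr1 : q.κ₁ * q.R / 8 ≤ √(2 * rq (gi d.s₁) z) := by
    rw [Real.le_sqrt' (by have := F.κ0; positivity)]
    exact (F.r2_ge hz).le
  have hr2 : √(2 * rq (gi d.s₁) z) ≤ 6 / q.σ * q.R := F.r_le hz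
  have hΛ : 1 ≤ 6 / q.σ := by
    rw [le_div_iff₀ F.σ0]
    linarith [F.σ1]
  have key := rr_pt n1 n2 ng (by positivity) k2 k1 F.R1 hΛ k3 F.κ0 F.κ1 hr1 hr2 A B
  obtain ⟨r1, r2', r3⟩ := key
  have Y0 : 0 ≤ bf (d.s₁ z.1) A A + bf (d.s₂ z.2) B B := by
    have a1 := nm_ss k1 (n1.b0 z.1 (mem_univ _)) A
    have a2 := nm_ss k1 (n2.b0 z.2 (mem_univ _)) B
    have a3 := sq_nonneg ‖A‖
    have a4 := sq_nonneg ‖B‖
    linarith
  refine ⟨r1, le_trans (neg_le_neg ?_) r2', r3⟩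
  show cR n * (6 / q.σ * ((1 + cG n 12) * q.ε) / q.R) * (bf (d.s₁ z.1) A A + bf (d.s₂ z.2) B B) ≤
    e * (q.σ / q.R) * (bf (d.s₁ z.1) A A + bf (d.s₂ z.2) B B)
  refine mul_le_mul_of_nonneg_right ?_ Y0
  calc cR n * (6 / q.σ * ((1 + cG n 12) * q.ε) / q.R) =
      cR n * (6 / q.σ * ((1 + cG n 12) * q.ε)) / q.R := by ring
    _ ≤ e * q.σ / q.R := div_le_div_of_nonneg_right k4 hR0.le
    _ = e * (q.σ / q.R) := by ring

/-- **The certificate of `W₀` at far pairs, levels up to `l₀ + ℓ R`.** -/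
theorem ev_cert0 (hn : 1 ≤ n) {ℓ : ℝ} (hℓ : ℓ ≤ 5) :
    EvC fun q => ∀ d : Pk n, PkOk q d → ∀ z ∈ UL ℓ q.κ₁ q d, ∀ A B : Fin n → ℝ,
      1 / 100 * (q.σ / q.R) * H269.INF.nn q d z * (ss d.sx A z + ss d.sy B z) ≤
        TH d.sx d.sy (WW (d.F q) d.l (gi d.s₁)) z A B := by
  have g0 : 0 ≤ cR n := by unfold cR; positivity
  refine ((((ev_Fk hn hℓ).and (rowRl hn hℓ (e := 1 / 200) (by norm_num))).and
    (ev_R₁.and (ev_es g0))).and ((evInf.and (evEps n)).and ((rowU n).and EvC.pos))).mono ?_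
  rintro q ⟨⟨⟨a1, a2⟩, a3, a4⟩, ⟨a5, a6⟩, a7, a8⟩ d h z hz A B
  have F := a1 d h
  obtain ⟨R₁, hP, hR₁⟩ := a3 a8.1.2.1 a8.2.1.1
  have hR := F.R0
  have ps : ∀ A : Fin n → ℝ, 0 ≤ ss d.sx A z := fun A => by
    have := (a7 d h z A A).1.1
    have h2 : 0 ≤ ∑ i, A i ^ 2 := Finset.sum_nonneg fun _ _ => sq_nonneg _
    linarith
  have pt : ∀ A : Fin n → ℝ, 0 ≤ ss d.sy A z := fun A => by
    have := (a7 d h z A A).1.2
    have h2 : 0 ≤ ∑ i, A i ^ 2 := Finset.sum_nonneg fun _ _ => sq_nonneg _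
    linarith
  have hM := H31.EP.PkOk.N_ge h (uf d.l z)
  have hM1 := F.M1
  have b1 : d.l z.1 ≤ d.l₀ q + 5 * q.R := by
    have h1 : d.l z.1 < d.l₀ q + ℓ * q.R := hz.1
    nlinarith
  have b2 : d.l z.2 ≤ d.l₀ q + 5 * q.R := by
    have h1 : d.l z.2 < d.l₀ q + ℓ * q.R := hz.2.1
    nlinarith
  exact cert_W0 F hP hR₁ g0 (by linarith) hz a4 ps pt
    (fun A B => ⟨(lev_lo a5 a6 h A B).1 b1, (lev_lo a5 a6 h A B).2 b2⟩) (a2 d h z hz) A B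

end Vale.Agent.P088.R2.H303.F
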