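import Vale.Agent.P088.R2.H269.INF.Geo
import Vale.Agent.P088.R2.H404.INF.Alv

/-!
# P088, stage 3, leaf iF: the open set of the far pairs
-/

open Set Filter
open scoped ContDiff Topology Matrix

noncomputable section

namespace Vale.Agent.P088.R2.H303.F

open Vale.Agent.P088.LR Vale.Agent.P088.HY Vale.Agent.P088.R2.H475
open Vale.Agent.P088.R2.H31.EP Vale.Agent.P088.R2.H404.INF Vale.Agent.P088.R2.H269.INF

variable {n : ℕ} {q : Cst} {d : Pk n} {z : VV n}

/-- The open set of the far pairs: levels below `l₀ + 3 R`, `|x - y| > κ₁ R / 4`, not deep. -/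
def OmP (q : Cst) (d : Pk n) : Set (VV n) :=
  UF q.κ₁ q d ∩ {z | -(11 / 1000) * (q.R / q.σ) <
    d.l z.1 + d.l z.2 + 4 / 5 * √(q.R ^ 2 + HY.sq (z.1 - z.2))}

theorem OmP_open (h : PkOk q d) (hR : 0 < q.R) : IsOpen (OmP q d) := by
  have hl := h.lev.sm.continuous
  have l1 : Continuous fun z : VV n => d.l z.1 := hl.comp continuous_fst
  have l2 : Continuous fun z : VV n => d.l z.2 := hl.comp continuous_snd
  have hs : Continuous fun z : VV n => HY.sq (z.1 - z.2) := sm_q.continuous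
  have hr : Continuous fun z : VV n => √(q.R ^ 2 + HY.sq (z.1 - z.2)) := (sm_rt hR).continuous
  exact ((isOpen_lt l1 continuous_const).inter ((isOpen_lt l2 continuous_const).inter
    (isOpen_lt continuous_const hs))).inter
    (isOpen_lt continuous_const ((l1.add l2).add (continuous_const.mul hr)))

/-- `√(R² + s²) ≤ R + s`. -/
theorem rt_add {R s : ℝ} (hR : 0 ≤ R) (hs : 0 ≤ s) : √(R ^ 2 + s) ≤ R + √s := by
  rw [Real.sqrt_le_left (by positivity)]
  have := Real.sq_sqrt hs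
  have h2 := Real.sqrt_nonneg s
  nlinarith [mul_nonneg hR h2]

/-- **Depth of both points.** -/
theorem OmP_w (hq : InfC q) (h : PkOk q d) (hz : z ∈ OmP q d) :
    2 / 25 < √(HY.sq (wR n q.σ q.R z.1)) ∧ 2 / 25 < √(HY.sq (wR n q.σ q.R z.2)) := by
  obtain ⟨⟨a1, a2, a3⟩, a4⟩ := hz
  have hR := hq.R0
  have h0 := hq.σ0
  have h1 := hq.σ1
  have hL := lvG hq h
  have hl1 := hL.l1
  have hl := h.lev.lit
  have e0 : d.l₀ q = lam0 q.R d.kap d.Gs := rfl
  change -(11 / 1000) * (q.R / q.σ) <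
    d.l z.1 + d.l z.2 + 4 / 5 * √(q.R ^ 2 + HY.sq (z.1 - z.2)) at a4
  rw [e0] at a1 a2 hl1
  rw [hl] at a1 a2 a4
  have h5 : 5000 * q.R ≤ q.R / q.σ := by
    rw [le_div_iff₀ h0]
    nlinarith
  have rt := rt_add hR.le (sq0 (z.1 - z.2))
  have hn := Real.sqrt_nonneg (HY.sq (z.1 - z.2))
  have key : 2 * lam0 q.R d.kap d.Gs - 1 / 50 * (q.R / q.σ) <
      levG n q.σ q.R d.kap d.Gs z.1 + levG n q.σ q.R d.kap d.Gs z.2 +
        81 / 100 * √(HY.sq (z.1 - z.2)) := by
    linarith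
  have key' : 2 * lam0 q.R d.kap d.Gs - 1 / 50 * (q.R / q.σ) <
      levG n q.σ q.R d.kap d.Gs z.2 + levG n q.σ q.R d.kap d.Gs z.1 +
        81 / 100 * √(HY.sq (z.2 - z.1)) := by
    rw [sq_swap]
    linarith
  exact ⟨not_deep h0 h1 hR (by linarith) key, not_deep h0 h1 hR (by linarith) key'⟩

/-- `FarOk` is inside. -/
theorem far_OmP (hq : InfC q)
    (h : FarOk q.κ₁ q.σ q.R (d.l₀ q) (H475.gg n q.σ) d.l z) (hp : PkOk q d) : z ∈ OmP q d := by
  have hR := hq.R0
  have h0 := hq.σ0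
  have hκ := hq.κ0
  have a1 := (gl_le hq hp).1 h.g1
  have a2 := (gl_le hq hp).1 h.g2
  have a3 := h.q
  have a4 := h.f
  refine ⟨⟨by linarith, by linarith, ?_⟩, ?_⟩
  · have h1 : 0 < q.κ₁ * q.R := by positivity
    have h2 := Real.sq_sqrt (sq0 (z.1 - z.2))
    nlinarith
  · have h1 : 0 < q.R / q.σ := by positivity
    have h2 : -(11 / 1000) * (q.R / q.σ) < -(9 / 1000) * (q.R / q.σ) := by linarith
    exact lt_of_lt_of_le h2 a4

end Vale.Agent.P088.R2.H303.F
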