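import Vale.Agent.P088.R2.H303.F.Spec

/-!
# P088, stage 3, leaf iF: the letters
-/

open Set Filter

noncomputable section

namespace Vale.Agent.P088.R2.H303.F

open Vale.Agent.P088.LR Vale.Agent.P088.HY Vale.Agent.P088.R2.H31.EP

variable {n : ℕ}

/-- The margin of the leaf iF (without the factor `χ²`). -/
def MzF (q : Cst) (d : Pk n) : H551.E.Q8 (VV n) :=
  MU d.sx d.sy (d.W q) (mX (1 / 100) q d) (mY (1 / 100) q d) (1 / 200)

/-- The cost of the leaf iF. -/
def cozF (q : Cst) (d : Pk n) : H551.E.Q8 (VV n) :=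
  coU d.sx d.sy (mX (1 / 100) q d) (mY (1 / 100) q d) (d.ch q .iF) (1 / 200)

end Vale.Agent.P088.R2.H303.F
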