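import Vale.Agent.P088.R2.H303.F.Zf
import Vale.Agent.P088.R2.H303.F.Lt
import Vale.Agent.P088.R2.H303.F.RowW
import Vale.Agent.P088.R2.H404.INF.RowL
import Vale.Agent.P088.R2.H271.F.RowR

/-!
# P088, stage 3, leaf iF: the zone theorem
-/

open Set Filter
open scoped ContDiff Topology Matrix

noncomputable section

namespace Vale.Agent.P088.R2.H303.F

open Vale.Agent.P088.R2.H31.EP Vale.Agent.P088.R2.H269.INF Vale.Agent.P088.R2.H747.SW

/-- The zone theorem of the leaf iF from the rows G, C. -/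
theorem zone_GC {n : ℕ} (hn : 1 ≤ n) (hG : RowG n) (hC : RowC n) :
    ZoneThm n (fun q d => d.ch q .iF) (fun q d => (MzF q d).sm fun z => d.ch q .iF z ^ 2)
      (fun q d => cozF q d) :=
  zone_of (H271.F.ev_Fk hn (by norm_num)) (H404.INF.rowL n) H271.F.rowR (rowW hn hG) hC

end Vale.Agent.P088.R2.H303.F
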