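import Vale.Agent.P088.R2.H303.F.Ev0

/-!
# P088, stage 3: the lower bound of the gradient at far pairs, one slot
-/

open Set Filter
open scoped ContDiff Topology Matrix

noncomputable section

namespace Vale.Agent.P088.R2.H303.F

open Vale.Agent.P088.LR Vale.Agent.P088.HY Vale.Agent.P088.R2.H475 Vale.Agent.P088.R2.H464.Cu
open Vale.Agent.P088.R2.H31.EP Vale.Agent.P088.R2.H404.INF Vale.Agent.P088.R2.H269.INF
open Vale.Agent.P088.R2.H644.Ch Vale.Agent.P088.R2.H747.SW Vale.Agent.P088.R2.H230.W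
open Vale.Agent.P088.R2.H768.FarJ Vale.Agent.P088.R2.H657.W Vale.Agent.P088.R2.H271.F
open Vale.Agent.P088.R2.H961.GW Vale.Agent.P088.R2.H960.W

variable {n : ℕ}

/-! ### Euclidean lemmas -/

theorem sq_eq (v : V n) : HY.sq v = ∑ i, v i ^ 2 := rfl

/-- `√(∑ e²) ≤ n c`. -/
theorem eu_le {e : V n} {c : ℝ} (hc : 0 ≤ c) (h : ∀ k, |e k| ≤ c) : √(HY.sq e) ≤ n * c := by
  rw [Real.sqrt_le_left (by positivity), sq_eq]
  have h1 : ∑ i, e i ^ 2 ≤ ∑ _i : Fin n, c ^ 2 := Finset.sum_le_sum fun i _ => by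
    rw [← sq_abs]
    exact pow_le_pow_left₀ (abs_nonneg _) (h i) 2
  rw [Finset.sum_const, Finset.card_univ, Fintype.card_fin, nsmul_eq_mul] at h1
  rcases Nat.eq_zero_or_pos n with hn | hn
  · subst hn
    simp
  · have h2 : (1 : ℝ) ≤ n := by exact_mod_cast hn
    have h3 : (n : ℝ) * c ^ 2 ≤ (n * c) ^ 2 := by
      have : 0 ≤ (n : ℝ) * c ^ 2 := by positivity
      nlinarith
    linarith

/-- `|G q|² ≤ (1 + 1/1000) r²` for `r² = ⟨G q, q⟩`. -/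
theorem eu_G {G : Matrix (Fin n) (Fin n) ℝ} {q : V n} {r e0 : ℝ} (hs : ∀ i j, G i j = G j i)
    (he0 : 0 ≤ e0) (hn : n * e0 ≤ 1 / 1000)
    (hG : ∀ i j, |G i j - (1 : Matrix (Fin n) (Fin n) ℝ) i j| ≤ e0) (hr : r ^ 2 = bf G q q) :
    HY.sq (G *ᵥ q) ≤ 1001 / 1000 * r ^ 2 := by
  set v := G *ᵥ q with hv
  have h1 : bf G v q = HY.sq v := by
    rw [sq_eq]
    unfold bf
    have : ∀ i, ∑ j, G i j * v i * q j = v i * v i := fun i => by
      calc ∑ j, G i j * v i * q j = v i * ∑ j, G i j * q j := by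
            rw [Finset.mul_sum]
            exact Finset.sum_congr rfl fun j _ => by ring
        _ = v i * v i := rfl
    exact Finset.sum_congr rfl fun i _ => by rw [this i]; ring
  have nb : ∀ w : V n, |bf G w w - HY.sq w| ≤ 1 / 1000 * HY.sq w := fun w => by
    have a1 := near_one hG w w
    have a2 := sum_abs_sq w
    have e1 : ∑ i, w i * w i = HY.sq w := Finset.sum_congr rfl fun i _ => by ring
    rw [e1] at a1
    refine a1.trans ?_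
    have w0 := sq0 w
    calc e0 * ((∑ i, |w i|) * ∑ j, |w j|) = e0 * (∑ i, |w i|) ^ 2 := by ring
      _ ≤ e0 * (n * ∑ i, w i ^ 2) := mul_le_mul_of_nonneg_left a2 he0
      _ = n * e0 * HY.sq w := by rw [sq_eq]; ring
      _ ≤ 1 / 1000 * HY.sq w := mul_le_mul_of_nonneg_right hn w0
  have nn : ∀ w : V n, 0 ≤ bf G w w := fun w => by
    have := (abs_le.1 (nb w)).1
    have w0 := sq0 w
    linarith
  have h2 := bf_cs hs nn v q
  rw [h1, ← hr] at h2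
  have h3 := (abs_le.1 (nb v)).2
  have v0 := sq0 v
  by_contra hc
  have hc' := not_le.1 hc
  have h4 : HY.sq v ^ 2 ≤ (1001 / 1000 * HY.sq v) * r ^ 2 :=
    h2.trans (mul_le_mul_of_nonneg_right (by linarith) (sq_nonneg r))
  have v1 : 0 < HY.sq v := lt_of_le_of_lt (by positivity) hc'
  nlinarith

/-- The gradient of `r`. -/
theorem eu_r {G : Matrix (Fin n) (Fin n) ℝ} {q e : V n} {r e0 c s : ℝ}
    (hs : ∀ i j, G i j = G j i) (he0 : 0 ≤ e0) (hn : n * e0 ≤ 1 / 1000)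
    (hG : ∀ i j, |G i j - (1 : Matrix (Fin n) (Fin n) ℝ) i j| ≤ e0) (hr : r ^ 2 = bf G q q)
    (r0 : 0 < r) (hc : 0 ≤ c) (he : ∀ k, |e k| ≤ c * r) (hnc : n * c ≤ 1 / 1000)
    (hs1 : |s| = 1) : √(HY.sq (fun k => 1 / r * (s * (G *ᵥ q) k + e k))) ≤ 101 / 100 := by
  have e1 : (fun k => 1 / r * (s * (G *ᵥ q) k + e k)) = (s / r) • (G *ᵥ q) + (1 / r) • e := by
    funext k
    simp only [Pi.add_apply, Pi.smul_apply, smul_eq_mul]
    ring
  rw [e1]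
  refine (en_add _ _).trans ?_
  rw [en_smul, en_smul, abs_div, hs1, abs_of_pos r0, abs_of_pos (by positivity : 0 < 1 / r)]
  have h1 : √(HY.sq (G *ᵥ q)) ≤ 1001 / 1000 * r := by
    rw [Real.sqrt_le_left (by positivity)]
    have := eu_G hs he0 hn hG hr
    nlinarith [sq_nonneg r]
  have h2 := eu_le (by positivity) he
  have h3 : 1 / r * √(HY.sq (G *ᵥ q)) ≤ 1001 / 1000 := by
    rw [one_div, inv_mul_le_iff₀ r0]
    linarith
  have h4 : 1 / r * √(HY.sq e) ≤ 1 / 1000 := by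
    rw [one_div, inv_mul_le_iff₀ r0]
    calc √(HY.sq e) ≤ n * (c * r) := h2
      _ = n * c * r := by ring
      _ ≤ 1 / 1000 * r := mul_le_mul_of_nonneg_right hnc r0.le
      _ = _ := by ring
  linarith

/-- The lower bound of a combination. -/
theorem vec_gain {a l' r' : V n} {m T : ℝ} (hm : 0 ≤ m) (ha : ∀ k, a k = m * l' k + T * r' k)
    (hl : (24 / 25) ^ 2 ≤ HY.sq l') (hr : √(HY.sq r') ≤ 101 / 100) (hT : |T| ≤ 81 / 100 * m) :
    1 / 50 * m ^ 2 ≤ HY.sq a := by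
  have e1 : a = m • l' + T • r' := by
    funext k
    simp only [Pi.add_apply, Pi.smul_apply, smul_eq_mul]
    exact ha k
  have e2 : m • l' = a - T • r' := by rw [e1]; abel
  have h1 := en_sub a (T • r')
  rw [← e2, en_smul, en_smul, abs_of_nonneg hm] at h1
  have h2 : 24 / 25 ≤ √(HY.sq l') := by
    rw [Real.le_sqrt' (by norm_num)]
    exact hl
  have h3 : |T| * √(HY.sq r') ≤ 81 / 100 * m * (101 / 100) :=
    mul_le_mul hT hr (Real.sqrt_nonneg _) (by positivity)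
  have h4 : m * (24 / 25) ≤ m * √(HY.sq l') := mul_le_mul_of_nonneg_left h2 hm
  have h5 : 1419 / 10000 * m ≤ √(HY.sq a) := by linarith
  have h6 : (1419 / 10000 * m) ^ 2 ≤ √(HY.sq a) ^ 2 := pow_le_pow_left₀ (by positivity) h5 2
  rw [Real.sq_sqrt (sq0 a)] at h6
  nlinarith [sq_nonneg m]

/-! ### The gradient of `r` on the package -/

section pk

variable {q : Cst} {d : Pk n} {z : VV n} {ℓ : ℝ}

/-- The scalar conditions. -/
structure GnC (n : ℕ) (q : Cst) : Prop where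
  e1 : n * (cG n 12 * q.ε) ≤ 1 / 1000
  e2 : n * (n ^ 3 * (6 / q.σ) * (cG n 12 * q.ε)) ≤ 1 / 1000
  es : q.es ≤ 1 / 100

theorem ev_GnC (n : ℕ) : EvC (GnC n) := by
  have h1 : EvC fun q => 0 < q.σ → n * (cG n 12 * q.ε) ≤ 1 / 1000 ∧
      n * (n ^ 3 * (6 / q.σ) * (cG n 12 * q.ε)) ≤ 1 / 1000 := by
    refine EvC.at_ε (fun q t => 0 < q.σ → n * (cG n 12 * t) ≤ 1 / 1000 ∧
      n * (n ^ 3 * (6 / q.σ) * (cG n 12 * t)) ≤ 1 / 1000) fun q => ?_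
    filter_upwards [ev_small (c := n * cG n 12) (a := 1 / 1000) (by norm_num),
      ev_small (c := n * (n ^ 3 * (6 / q.σ) * cG n 12)) (a := 1 / 1000) (by norm_num)] with
      t a1 a2 _
    exact ⟨by linarith, by linarith⟩
  have h2 : EvC fun q => q.es ≤ 1 / 100 :=
    EvC.at_es (fun _ t => t ≤ 1 / 100) fun _ => sml_le (by norm_num)
  refine ((h1.and h2).and EvC.pos).mono fun q hq => ?_
  obtain ⟨a1, a2⟩ := hq.1.1 hq.2.2.1.2.1
  exact ⟨a1, a2, hq.1.2⟩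

theorem r_fd (F : Fk n ℓ q.κ₁ q.σ q.e₁ q d) (hz : z ∈ UL ℓ q.κ₁ q d) (w : VV n) :
    fderiv ℝ (jr d) z w = 1 / jr d z * (bf (gi d.s₁ (mid z)) (dif w) (dif z) +
      1 / 2 * bf (dg (mid w) (gi d.s₁) (mid z)) (dif z) (dif z)) := by
  have ng := (F.tr.inv F.R0 F.ε1 F.ε2).nr (by norm_num) univ
  have h := rq_d (g := gi d.s₁) (z := z) (fun i j => df_of isOpen_univ (ng.sm i j) (mem_univ _))
    ng.sy w
  have hr : 0 < r2 (gi d.s₁) z := by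
    have := F.r2_400 hz
    linarith
  have h1 : HasFDerivAt (fun z => 2 * rq (gi d.s₁) z) ((2 : ℝ) • fderiv ℝ (rq (gi d.s₁)) z) z := by
    exact h.d.hasFDerivAt.const_mul 2
  have h2 := h1.sqrt (ne_of_gt hr)
  have e : jr d = fun z => √(2 * rq (gi d.s₁) z) := rfl
  rw [e, h2.fderiv]
  simp only [_root_.smul_apply, smul_eq_mul, h.e]
  show 1 / (2 * √(2 * rq (gi d.s₁) z)) * _ = 1 / √(2 * rq (gi d.s₁) z) * _
  have hs : √(2 * rq (gi d.s₁) z) ≠ 0 := (Real.sqrt_pos.2 hr).ne'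
  field_simp

/-- `|∇ r| ≤ 101/100` in each slot. -/
theorem r_gr (F : Fk n ℓ q.κ₁ q.σ q.e₁ q d) (g : GnC n q) (hz : z ∈ UL ℓ q.κ₁ q d) :
    √(HY.sq (fun k => fderiv ℝ (jr d) z (Pi.single k 1, 0))) ≤ 101 / 100 ∧
    √(HY.sq (fun k => fderiv ℝ (jr d) z (0, Pi.single k 1))) ≤ 101 / 100 := by
  have ng := (F.tr.inv F.R0 F.ε1 F.ε2).nr (by norm_num) univ
  have hR := F.R0
  have hσ := F.σ0
  obtain ⟨-, -, -, r0⟩ := sm_far F
  obtain ⟨r1, r2', r3⟩ := r0 z hz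
  have hrl : jr d z ≤ 6 / q.σ * q.R := F.r_le hz
  have c0 : 0 ≤ cG n 12 * q.ε := mul_nonneg (cG_nn n 12) F.ε0
  have hr : jr d z ^ 2 = bf (gi d.s₁ (mid z)) (dif z) (dif z) := by
    unfold jr
    rw [Real.sq_sqrt r2']
    unfold r2 rq
    ring
  have he2 : n * (cG n 12 * q.ε) ≤ 1 / 2 := by linarith [g.e1]
  have kq : ‖dif z‖ ≤ 2 * jr d z := by
    have h1 := nm_ss he2 (ng.b0 (mid z) (mem_univ _)) (dif z)
    rw [← hr] at h1
    exact le_of_sq_le_sq (by linarith [h1]) (by positivity)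
  have hd : 0 ≤ cG n 12 * q.ε * q.R⁻¹ := mul_nonneg c0 (inv_nonneg.2 hR.le)
  set e : V n := fun k =>
    1 / 2 * bf (dg ((1 / 2 : ℝ) • Pi.single k 1) (gi d.s₁) (mid z)) (dif z) (dif z) with he
  have ek : ∀ k, |e k| ≤ (n ^ 3 * (6 / q.σ) * (cG n 12 * q.ε)) * jr d z := fun k => by
    have h1 := g2_le hd ng (mem_univ (mid z)) (dif z) k
    refine h1.trans ?_
    have h2 : ‖dif z‖ ^ 2 ≤ 4 * (jr d z * (6 / q.σ * q.R)) := by
      calc ‖dif z‖ ^ 2 ≤ (2 * jr d z) ^ 2 := pow_le_pow_left₀ (norm_nonneg _) kq 2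
        _ = 4 * (jr d z * jr d z) := by ring
        _ ≤ 4 * (jr d z * (6 / q.σ * q.R)) := by gcongr
    calc 1 / 4 * ((n : ℝ) ^ 3 * (cG n 12 * q.ε * q.R⁻¹ * ‖dif z‖ ^ 2))
        ≤ 1 / 4 * ((n : ℝ) ^ 3 * (cG n 12 * q.ε * q.R⁻¹ * (4 * (jr d z * (6 / q.σ * q.R))))) := by
          gcongr
      _ = _ := by field_simp
  have sy : ∀ i j, gi d.s₁ (mid z) i j = gi d.s₁ (mid z) j i := ng.sy (mid z)
  have hc : 0 ≤ n ^ 3 * (6 / q.σ) * (cG n 12 * q.ε) := by positivity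
  constructor
  · have h1 := eu_r (s := 1) sy c0 g.e1 (ng.b0 (mid z) (mem_univ _)) hr r1 hc ek g.e2 (by simp)
    refine le_trans (le_of_eq ?_) h1
    congr 2
    funext k
    rw [r_fd F hz, dif_x, mid_x, bf_single, one_mul]
  · have h1 := eu_r (s := -1) sy c0 g.e1 (ng.b0 (mid z) (mem_univ _)) hr r1 hc ek g.e2 (by simp)
    refine le_trans (le_of_eq ?_) h1
    congr 2
    funext k
    rw [r_fd F hz, dif_y, mid_y, bf_neg, bf_single]
    ring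

/-- The derivatives of `W₀` in the slots. -/
theorem D_W0 (F : Fk n ℓ q.κ₁ q.σ q.e₁ q d) {R₁ : ℝ} (hP : PrF q.e₁ R₁)
    (hR₁ : R₁ ≤ q.κ₁ * q.R / 8) (hz : z ∈ UL ℓ q.κ₁ q d) (k : Fin n) :
    d.sx.D k (WW (d.F q) d.l (gi d.s₁)) z = H269.INF.nn q d z * pd k d.l z.1 +
      (q.D 1 0 (jφ q d z, jr d z) * (4 / 5) + q.D 0 1 (jφ q d z, jr d z)) *
        fderiv ℝ (jr d) z (Pi.single k 1, 0) ∧
    d.sy.D k (WW (d.F q) d.l (gi d.s₁)) z = H269.INF.nn q d z * pd k d.l z.2 +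
      (q.D 1 0 (jφ q d z, jr d z) * (4 / 5) + q.D 0 1 (jφ q d z, jr d z)) *
        fderiv ℝ (jr d) z (0, Pi.single k 1) := by
  obtain ⟨su, sφ, sr, r0⟩ := sm_far F
  obtain ⟨r1, r2', r3⟩ := r0 z hz
  have w := (wf_far F hP).w
  have ok := ok_x F
  have ot := ok_y F
  have eφ := jφ_eq (q := q) z r2'
  have hS : prL q.e₁ (jr d z) = 4 / 5 := by
    rw [hP.L_far _ (hR₁.trans r3)]; rfl
  have e1 : WW (d.F q) d.l (gi d.s₁) =ᶠ[𝓝 z] H230.W.wt d.Φ (SF q.e₁)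
      (fun i j f r => q.D i j (f, r)) (uf d.l) (jr d) :=
    Filter.eventually_of_mem (F.UF_open.mem_nhds hz) fun w hw => by
      rw [W0_wF F hw]
      unfold wF
      ring
  have hx : z.1 ∈ (univ : Set (V n)) := mem_univ _
  have hy : z.2 ∈ (univ : Set (V n)) := mem_univ _
  have gx' := gx_uf (z := z) isOpen_univ F.pk.lev.sm.contDiffOn hx hy k
  have gy' := gy_uf (z := z) isOpen_univ F.pk.lev.sm.contDiffOn hx hy k
  have a1 : d.sx.D k (uf d.l) z = pd k d.l z.1 := by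
    rw [← gx']; exact Dx1 (s := d.s₁) k _ z
  have a2 : d.sy.D k (uf d.l) z = pd k d.l z.2 := by
    rw [← gy']; exact Dy1 (s := d.s₂) k _ z
  have b1 : d.sx.D k (jr d) z = fderiv ℝ (jr d) z (Pi.single k 1, 0) :=
    Dx1 (s := d.s₁) k _ z
  have b2 : d.sy.D k (jr d) z = fderiv ℝ (jr d) z (0, Pi.single k 1) :=
    Dy1 (s := d.s₂) k _ z
  constructor
  · rw [D_congr_nhds _ e1 k, D_wt ok w hz k, a1, b1, hS, ← eφ]
    rfl
  · rw [D_congr_nhds _ e1 k, D_wt ot w hz k, a2, b2, hS, ← eφ]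
    rfl

theorem T_le (F : Fk n ℓ q.κ₁ q.σ q.e₁ q d) (g : GnC n q) (hz : z ∈ UL ℓ q.κ₁ q d)
    (hΦ : 0 ≤ deriv d.Φ (uf d.l z)) {t : ℝ} (ht : 0 ≤ t) :
    |q.D 1 0 (jφ q d z, jr d z) * (4 / 5) + q.D 0 1 (jφ q d z, jr d z)| ≤
      81 / 100 * (H269.INF.nn q d z + t) := by
  obtain ⟨-, -, -, r0⟩ := sm_far F
  have G0 := (F.pk.sl.G_pos (jφ q d z, jr d z) (r0 z hz).1).le
  have h1 := F.pk.sl.mu (jφ q d z, jr d z) (r0 z hz).1
  have h2 := mul_le_mul_of_nonneg_right g.es G0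
  have h3 : |q.D 1 0 (jφ q d z, jr d z) * (4 / 5)| = q.D 1 0 (jφ q d z, jr d z) * (4 / 5) :=
    abs_of_nonneg (by positivity)
  refine (abs_add_le _ _).trans ?_
  rw [h3]
  unfold H269.INF.nn
  linarith

/-- **The gain in the second slot**: `∇_y W₀ + t ∇ l(y)`. -/
theorem gain_y (hq : InfC q) (F : Fk n ℓ q.κ₁ q.σ q.e₁ q d) (g : GnC n q) {R₁ : ℝ}
    (hP : PrF q.e₁ R₁) (hR₁ : R₁ ≤ q.κ₁ * q.R / 8) (hz : z ∈ UL ℓ q.κ₁ q d)
    (hw : 2 / 25 ≤ √(HY.sq (wR n q.σ q.R z.2))) {t : ℝ} (ht : 0 ≤ t)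
    (hU : ∀ A : Fin n → ℝ, ∑ i, A i ^ 2 ≤ 2 * ss d.sy A z) :
    1 / 100 * (H269.INF.nn q d z + t) ^ 2 ≤ ss d.sy
      (fun k => d.sy.D k (WW (d.F q) d.l (gi d.s₁)) z + t * pd k d.l z.2) z := by
  have hΦ : 0 ≤ deriv d.Φ (uf d.l z) := by
    have := H31.EP.PkOk.N_ge F.pk (uf d.l z)
    linarith [F.M1]
  obtain ⟨-, -, -, r0⟩ := sm_far F
  have G0 := (F.pk.sl.G_pos (jφ q d z, jr d z) (r0 z hz).1).le
  have hn0 : 0 ≤ H269.INF.nn q d z := by unfold H269.INF.nn; linarith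
  have hl : (24 / 25) ^ 2 ≤ HY.sq (fun k => pd k d.l z.2) := by
    rw [F.pk.lev.lit]
    exact grad_levG_ge hq.σ0 hq.σ1 hq.R0 hw
  have key := vec_gain (a := fun k => d.sy.D k (WW (d.F q) d.l (gi d.s₁)) z + t * pd k d.l z.2)
    (l' := fun k => pd k d.l z.2) (r' := fun k => fderiv ℝ (jr d) z (0, Pi.single k 1))
    (m := H269.INF.nn q d z + t) (T := q.D 1 0 (jφ q d z, jr d z) * (4 / 5) +
      q.D 0 1 (jφ q d z, jr d z)) (by linarith) (fun k => by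
      rw [(D_W0 F hP hR₁ hz k).2]; ring) hl (r_gr F g hz).2 (T_le F g hz hΦ ht)
  have h2 := hU fun k => d.sy.D k (WW (d.F q) d.l (gi d.s₁)) z + t * pd k d.l z.2
  rw [sq_eq] at key
  linarith

/-- **The gain in the first slot**: `∇_x W₀ + t ∇ l(x)`. -/
theorem gain_x (hq : InfC q) (F : Fk n ℓ q.κ₁ q.σ q.e₁ q d) (g : GnC n q) {R₁ : ℝ}
    (hP : PrF q.e₁ R₁) (hR₁ : R₁ ≤ q.κ₁ * q.R / 8) (hz : z ∈ UL ℓ q.κ₁ q d)
    (hw : 2 / 25 ≤ √(HY.sq (wR n q.σ q.R z.1))) {t : ℝ} (ht : 0 ≤ t)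
    (hU : ∀ A : Fin n → ℝ, ∑ i, A i ^ 2 ≤ 2 * ss d.sx A z) :
    1 / 100 * (H269.INF.nn q d z + t) ^ 2 ≤ ss d.sx
      (fun k => d.sx.D k (WW (d.F q) d.l (gi d.s₁)) z + t * pd k d.l z.1) z := by
  have hΦ : 0 ≤ deriv d.Φ (uf d.l z) := by
    have := H31.EP.PkOk.N_ge F.pk (uf d.l z)
    linarith [F.M1]
  obtain ⟨-, -, -, r0⟩ := sm_far F
  have G0 := (F.pk.sl.G_pos (jφ q d z, jr d z) (r0 z hz).1).le
  have hn0 : 0 ≤ H269.INF.nn q d z := by unfold H269.INF.nn; linarith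
  have hl : (24 / 25) ^ 2 ≤ HY.sq (fun k => pd k d.l z.1) := by
    rw [F.pk.lev.lit]
    exact grad_levG_ge hq.σ0 hq.σ1 hq.R0 hw
  have key := vec_gain (a := fun k => d.sx.D k (WW (d.F q) d.l (gi d.s₁)) z + t * pd k d.l z.1)
    (l' := fun k => pd k d.l z.1) (r' := fun k => fderiv ℝ (jr d) z (Pi.single k 1, 0))
    (m := H269.INF.nn q d z + t) (T := q.D 1 0 (jφ q d z, jr d z) * (4 / 5) +
      q.D 0 1 (jφ q d z, jr d z)) (by linarith) (fun k => by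
      rw [(D_W0 F hP hR₁ hz k).1]; ring) hl (r_gr F g hz).1 (T_le F g hz hΦ ht)
  have h2 := hU fun k => d.sx.D k (WW (d.F q) d.l (gi d.s₁)) z + t * pd k d.l z.1
  rw [sq_eq] at key
  linarith

end pk

/-- **The gain at far pairs for suitably chosen constants**, one slot, levels up to `l₀ + ℓ R`. -/
theorem ev_gain (hn : 1 ≤ n) {ℓ : ℝ} (hℓ : ℓ ≤ 5) :
    EvC fun q => ∀ d : Pk n, PkOk q d → ∀ z ∈ UL ℓ q.κ₁ q d, ∀ t : ℝ, 0 ≤ t →
      (2 / 25 ≤ √(HY.sq (wR n q.σ q.R z.1)) →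
        1 / 100 * (H269.INF.nn q d z + t) ^ 2 ≤ ss d.sx
          (fun k => d.sx.D k (WW (d.F q) d.l (gi d.s₁)) z + t * pd k d.l z.1) z) ∧
      (2 / 25 ≤ √(HY.sq (wR n q.σ q.R z.2)) →
        1 / 100 * (H269.INF.nn q d z + t) ^ 2 ≤ ss d.sy
          (fun k => d.sy.D k (WW (d.F q) d.l (gi d.s₁)) z + t * pd k d.l z.2) z) := by
  refine ((((ev_Fk hn hℓ).and (ev_GnC n)).and ev_R₁).and
    ((evInf.and (rowU n)).and EvC.pos)).mono ?_
  rintro q ⟨⟨⟨a1, a2⟩, a3⟩, ⟨a4, a5⟩, a6⟩ d h z hz t ht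
  obtain ⟨R₁, hP, hR₁⟩ := a3 a6.1.2.1 a6.2.1.1
  exact ⟨fun hw => gain_x a4 (a1 d h) a2 hP hR₁ hz hw ht fun A => (a5 d h z A A).1.1,
    fun hw => gain_y a4 (a1 d h) a2 hP hR₁ hz hw ht fun A => (a5 d h z A A).1.2⟩

/-- The slot derivatives of the weight. -/
theorem D_W {q : Cst} {d : Pk n} {z : VV n} (F : Fk n 3 q.κ₁ q.σ q.e₁ q d)
    (hz : z ∈ UF q.κ₁ q d) (k : Fin n) :
    d.sx.D k (d.W q) z = d.sx.D k (WW (d.F q) d.l (gi d.s₁)) z +
      deriv d.Θ (d.l z.1) * pd k d.l z.1 ∧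
    d.sy.D k (d.W q) z = d.sy.D k (WW (d.F q) d.l (gi d.s₁)) z +
      deriv d.Θ (d.l z.2) * pd k d.l z.2 := by
  obtain ⟨R₁, hP⟩ := prf_ex F.e0
  have w := wf_far F hP
  have ok := ok_x F
  have ot := ok_y F
  have hO : IsOpen (UF q.κ₁ q d) := F.UF_open
  have s0 : Sm (UF q.κ₁ q d) (WW (d.F q) d.l (gi d.s₁)) :=
    w.w.sm.congr fun z hz => by
      rw [W0_wF F hz]
      unfold wF
      ring
  have e1 : d.W q =ᶠ[𝓝 z] fun z => WW (d.F q) d.l (gi d.s₁) z +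
      (d.Θ (d.l z.1) + d.Θ (d.l z.2)) :=
    Filter.eventually_of_mem (hO.mem_nhds hz) fun w hw => by
      show _ = WW (d.F q) d.l (gi d.s₁) w + (d.Θ (d.l w.1) + d.Θ (d.l w.2))
      rw [W_wF F hw, W0_wF F hw]
      unfold wF
      ring
  have hl := F.pk.lev.sm
  have dl : ∀ x : V n, DifferentiableAt ℝ d.l x := fun x => hl.differentiable (by simp) x
  have x1 : d.sx.D k (fun z : VV n => d.l z.1) z = pd k d.l z.1 := by
    have h : d.sx.D k (fun z : VV n => d.l z.1) z =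
      fderiv ℝ (fun z : VV n => d.l z.1) z (Pi.single k 1, 0) := Dx1 (s := d.s₁) k _ z
    rw [h, fd_fst (dl _)]; rfl
  have x2 : d.sx.D k (fun z : VV n => d.l z.2) z = 0 := by
    have h : d.sx.D k (fun z : VV n => d.l z.2) z =
      fderiv ℝ (fun z : VV n => d.l z.2) z (Pi.single k 1, 0) := Dx1 (s := d.s₁) k _ z
    rw [h, fd_snd (dl _), map_zero]
  have y1 : d.sy.D k (fun z : VV n => d.l z.1) z = 0 := by
    have h : d.sy.D k (fun z : VV n => d.l z.1) z =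
      fderiv ℝ (fun z : VV n => d.l z.1) z (0, Pi.single k 1) := Dy1 (s := d.s₂) k _ z
    rw [h, fd_fst (dl _), map_zero]
  have y2 : d.sy.D k (fun z : VV n => d.l z.2) z = pd k d.l z.2 := by
    have h : d.sy.D k (fun z : VV n => d.l z.2) z =
      fderiv ℝ (fun z : VV n => d.l z.2) z (0, Pi.single k 1) := Dy1 (s := d.s₂) k _ z
    rw [h, fd_snd (dl _)]; rfl
  constructor
  · rw [D_congr_nhds _ e1 k, D_add d.sx hO s0 (w.cx.s0.add w.cy.s0) k hz,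
      D_add d.sx hO w.cx.s0 w.cy.s0 k hz, D_comp hO w.cx k hz, D_comp hO w.cy k hz, x1, x2]
    ring
  · rw [D_congr_nhds _ e1 k, D_add d.sy hO s0 (w.cx.s0.add w.cy.s0) k hz,
      D_add d.sy hO w.cx.s0 w.cy.s0 k hz, D_comp hO w.cx k hz, D_comp hO w.cy k hz, y1, y2]
    ring

/-- **Row G.** -/
theorem rowG (hn : 1 ≤ n) : RowG n := by
  refine ((((ev_Fk hn (by norm_num : (3 : ℝ) ≤ 5)).and (ev_gain hn
    (by norm_num : (3 : ℝ) ≤ 5))).and evInf)).mono ?_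
  rintro q ⟨⟨a1, a2⟩, a3⟩ d h z hz
  have F := a1 d h
  obtain ⟨w1, w2⟩ := OmP_w a3 h hz
  have t1 := F.pk.Θd0 F.R0 (d.l z.1)
  have t2 := F.pk.Θd0 F.R0 (d.l z.2)
  have g1 := (a2 d h z hz.1 _ t1).1 w1.le
  have g2 := (a2 d h z hz.1 _ t2).2 w2.le
  constructor
  · refine g1.trans (le_of_eq ?_)
    have e : (fun k => d.sx.D k (WW (d.F q) d.l (gi d.s₁)) z + deriv d.Θ (d.l z.1) *
        pd k d.l z.1) = fun k => d.sx.D k (d.W q) z := funext fun k => ((D_W F hz.1 k).1).symm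
    rw [e]
    rfl
  · refine g2.trans (le_of_eq ?_)
    have e : (fun k => d.sy.D k (WW (d.F q) d.l (gi d.s₁)) z + deriv d.Θ (d.l z.2) *
        pd k d.l z.2) = fun k => d.sy.D k (d.W q) z := funext fun k => ((D_W F hz.1 k).2).symm
    rw [e]
    rfl

end Vale.Agent.P088.R2.H303.F
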