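import Vale.Agent.P088.R2.H303.F.Zf
import Vale.Agent.P088.R2.H303.F.Lt
import Vale.Agent.P088.R2.H269.INF.Ev

/-!
# P088, stage 3, leaf iF: the letters on the support
-/

open Set Filter
open scoped ContDiff Topology Matrix

noncomputable section

namespace Vale.Agent.P088.R2.H303.F

open Vale.Agent.P088.LR Vale.Agent.P088.HY
open Vale.Agent.P088.R2.H31.EP Vale.Agent.P088.R2.H404.INF Vale.Agent.P088.R2.H269.INF
open Vale.Agent.P088.R2.H747.SW

variable {n : ℕ}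

/-- The letters of iF on the support of its cut-off: `s = σ / R`,
`ζ_i = s n_i / 100`, `w_i ≥ s (n_i F_i + s n_i²) / 600`, `n_i ≥ M₀`, `F_i ≥ n_i² / 100`. -/
structure PayF (q : Cst) (d : Pk n) (z : VV n) : Prop where
  om : z ∈ OmP q d
  nx : q.M₀ ≤ nx q d z
  ny : q.M₀ ≤ ny q d z
  Fx : 1 / 100 * H269.INF.nx q d z ^ 2 ≤ d.sx.F (d.W q) z
  Fy : 1 / 100 * H269.INF.ny q d z ^ 2 ≤ d.sy.F (d.W q) z
  z1 : (MzF q d).ζ₁ z = 1 / 100 * (q.σ / q.R) * H269.INF.nx q d z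
  z2 : (MzF q d).ζ₂ z = 1 / 100 * (q.σ / q.R) * H269.INF.ny q d z
  w1 : 1 / 600 * (q.σ / q.R) * (H269.INF.nx q d z * d.sx.F (d.W q) z +
    (q.σ / q.R) * H269.INF.nx q d z ^ 2) ≤ (MzF q d).w₁ z
  w2 : 1 / 600 * (q.σ / q.R) * (H269.INF.ny q d z * d.sy.F (d.W q) z +
    (q.σ / q.R) * H269.INF.ny q d z ^ 2) ≤ (MzF q d).w₂ z
  κ : (MzF q d).κ z = 199 / 200
  ζy : (MzF q d).ζy z = 0
  wb : (MzF q d).wb z = 0
  wc : (MzF q d).wc z = 0

theorem w_lo {s m F : ℝ} (hs : 0 ≤ s) (hs1 : s ≤ 1 / 100) (hm : 1 ≤ m)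
    (hF : 1 / 100 * m ^ 2 ≤ F) :
    1 / 600 * s * (m * F + s * m ^ 2) ≤ 1 / 3 * (1 / 100 * s * m * F) := by
  have h1 : s * m ^ 2 ≤ m * F := by
    have h2 : s * m ≤ F := by
      have : s * m ≤ 1 / 100 * m := mul_le_mul_of_nonneg_right hs1 (by linarith)
      nlinarith
    calc s * m ^ 2 = m * (s * m) := by ring
      _ ≤ m * F := mul_le_mul_of_nonneg_left h2 (by linarith)
  calc 1 / 600 * s * (m * F + s * m ^ 2) ≤ 1 / 600 * s * (m * F + m * F) :=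
        mul_le_mul_of_nonneg_left (by linarith) (by positivity)
    _ = _ := by ring

theorem payF (hn : 1 ≤ n) (hG : RowG n) : EvC fun q => ∀ d : Pk n, PkOk q d → ∀ z,
    d.ch q .iF z ≠ 0 → PayF q d z := by
  have h1 := ev_far hn (e := fun _ => 1) (fun _ => rfl) (EvC.of fun _ => ⟨one_pos, le_rfl⟩)
  refine ((evInf.and h1).and (hG.and EvC.pos)).mono fun q hq d h z hz => ?_
  obtain ⟨⟨a1, a2⟩, a3, a4⟩ := hq
  have f := (a2 d h).fc
  have ho : z ∈ OmP q d := far_OmP a1 (far_supp a1 h (subset_tsupport _ hz)) h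
  have hR := a1.R0
  have hσ := a1.σ0
  have hn0 : q.M₀ ≤ H269.INF.nn q d z := by
    have h1 := H31.EP.PkOk.N_ge h (H464.Cu.uf d.l z)
    have h2 := f.G0 ho.1
    unfold H269.INF.nn
    linarith
  have hM := f.M1
  have n1 := hn0.trans (f.nx_ge z)
  have n2 := hn0.trans (f.ny_ge z)
  obtain ⟨F1, F2⟩ := a3 d h z ho
  have hs : 0 ≤ q.σ / q.R := by positivity
  have hs1 : q.σ / q.R ≤ 1 / 100 := by
    rw [div_le_iff₀ hR]
    have := a1.σ1
    have := a1.R1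
    linarith
  exact
    { om := ho
      nx := n1
      ny := n2
      Fx := F1
      Fy := F2
      z1 := rfl
      z2 := rfl
      w1 := w_lo hs hs1 (hM.trans n1) F1
      w2 := w_lo hs hs1 (hM.trans n2) F2
      κ := by show (1 : ℝ) - 1 / 200 = _; norm_num
      ζy := rfl
      wb := rfl
      wc := rfl }

end Vale.Agent.P088.R2.H303.F
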