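import Vale.Agent.P088.R2.H591.X.Of
import Vale.Agent.P088.R2.H269.INF.ZiF

/-!
# P088, stage 3, leaf iF: the row of the shape
-/

noncomputable section

namespace Vale.Agent.P088.R2.H303.F

open Vale.Agent.P088.R2.H31.EP Vale.Agent.P088.R2.H558.G

/-- **The row of the leaf iF in the shape of the proof.** -/
theorem zrF_iF {n : ℕ} (hn : 1 ≤ n) {F : Lf n} (hM : F.FM .iF = MzF) (hC : F.FC .iF = cozF) :
    ZRF F .iF :=
  H591.X.ZRF.of (by simp) (by rw [hM, hC]; exact H269.INF.zone_iF hn)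

end Vale.Agent.P088.R2.H303.F
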