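import Vale.Agent.P088.R2.H31.EP.PackL

/-!
# P088, stage 3: the third derivative of the slow exponential

`D30 D10 ≤ C D20²`, `C` absolute.
-/

open Set Filter
open scoped ContDiff Topology

noncomputable section

namespace Vale.Agent.P088.R2.H303.F

open Vale.Agent.P088.R2.H31.EP Vale.Agent.P088.R2.H768.W

theorem thd_ex : ∃ C δ₀ : ℝ, 0 ≤ C ∧ 0 < δ₀ ∧ ∀ τ r₁ : ℝ, 0 < τ → τ ≤ 1 → 0 < r₁ →
    dl τ r₁ ≤ δ₀ → ∀ z : E2, 0 < z.2 →
      Dp τ r₁ 3 0 z * Dp τ r₁ 1 0 z ≤ C * Dp τ r₁ 2 0 z ^ 2 := by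
  obtain ⟨C, Cb, hC, hCb, hcor⟩ := cor
  refine ⟨1 + 8 * Cb 3 0, min 1 (1 / (100 * C)), by have := hCb 3 0; positivity, by positivity,
    fun τ r₁ hτ hτ1 hr hd z hz => ?_⟩
  have hb := hCb 3 0
  rcases lt_or_ge z.2 (r₁ * Real.exp (-1)) with h | h
  · rw [Dp_in hτ hr _ _ hz h, Dp_in hτ hr _ _ hz h, Dp_in hτ hr _ _ hz h]
    simp only [if_true]
    have := Real.exp_pos z.1
    nlinarith [sq_nonneg (Real.exp z.1), mul_nonneg hb (sq_nonneg (Real.exp z.1))]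
  · have hdl : 0 < dl τ r₁ := inv_pos.2 (mul_pos hτ hr)
    have hw := mem_Om (τ := τ) hr hz h
    have h1 := hcor τ (dl τ r₁) hτ.le hτ1 hdl.le (hd.trans (min_le_left _ _)) _ hw
    have hs : C * dl τ r₁ ≤ 1 / 100 := by
      have := hd.trans (min_le_right _ _)
      rw [le_div_iff₀ (by positivity)] at this
      linarith
    set w := Zc τ r₁ z with hwd
    have a1 := (h1.R10_ge hs).2
    have a1' := (h1.R10_ge hs).1
    have a2 := h1.R20_lo hs
    have a3 := (le_abs_self _).trans (h1.r3 3 le_rfl)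
    have a4 := h1.R30_nn hs
    have w0 := wm_pos 2 (-1) w
    have e0 := Real.exp_pos (uu τ r₁ z)
    show Real.exp (uu τ r₁ z) * RR τ (dl τ r₁) 3 0 w * (Real.exp (uu τ r₁ z) *
      RR τ (dl τ r₁) 1 0 w) ≤ (1 + 8 * Cb 3 0) * (Real.exp (uu τ r₁ z) * RR τ (dl τ r₁) 2 0 w) ^ 2
    have k1 : RR τ (dl τ r₁) 3 0 w * RR τ (dl τ r₁) 1 0 w ≤
        (1 + 8 * Cb 3 0) * RR τ (dl τ r₁) 2 0 w ^ 2 := by
      have b1 : RR τ (dl τ r₁) 3 0 w * RR τ (dl τ r₁) 1 0 w ≤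
          Cb 3 0 * (wm 2 (-1) w * wm 2 (-1) w) * 2 :=
        mul_le_mul a3 (by linarith) (by linarith) (by positivity)
      have b2 : wm 2 (-1) w * wm 2 (-1) w ≤ 2 * RR τ (dl τ r₁) 2 0 w * (2 * RR τ (dl τ r₁) 2 0 w) :=
        mul_le_mul a2 a2 w0.le (by linarith)
      have b3 := mul_le_mul_of_nonneg_left b2 hb
      nlinarith [sq_nonneg (RR τ (dl τ r₁) 2 0 w)]
    have e2 : 0 ≤ Real.exp (uu τ r₁ z) ^ 2 := sq_nonneg _
    calc _ = Real.exp (uu τ r₁ z) ^ 2 * (RR τ (dl τ r₁) 3 0 w * RR τ (dl τ r₁) 1 0 w) := by ring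
      _ ≤ Real.exp (uu τ r₁ z) ^ 2 * ((1 + 8 * Cb 3 0) * RR τ (dl τ r₁) 2 0 w ^ 2) :=
          mul_le_mul_of_nonneg_left k1 e2
      _ = _ := by ring

/-- The constant. -/
def Ctd : ℝ := thd_ex.choose

theorem Ctd_nn : 0 ≤ Ctd := thd_ex.choose_spec.choose_spec.1

/-- **The third derivative of the slow exponential on the package.** -/
theorem EvC.thd : EvC fun q => ∀ z : ℝ × ℝ, 0 < z.2 →
    q.D 3 0 z * q.D 1 0 z ≤ Ctd * q.D 2 0 z ^ 2 := by
  obtain ⟨δ₀, -, hδ, H⟩ := thd_ex.choose_spec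
  have h1 : EvC fun q => 0 < q.c' → 0 < q.es → q.τ ≤ 1 ∧ 0 < q.τ ∧ dl q.τ q.r₁ ≤ δ₀ := by
    refine EvC.at_M₀ (fun q t => 0 < q.c' → 0 < q.es → slC q.c' q.es * Real.log t / t ≤ 1 ∧
      0 < slC q.c' q.es * Real.log t / t ∧
      dl (slC q.c' q.es * Real.log t / t) (q.c' * t / 2) ≤ δ₀) fun q => ?_
    by_cases h : 0 < q.c' ∧ 0 < q.es
    · obtain ⟨N₀, h0, h2, h3⟩ := (slow_ex q.c' q.es).choose_spec h.1 h.2
      have h0' : 0 < slC q.c' q.es := h0
      have t1 : Tendsto (fun t : ℝ => slC q.c' q.es * Real.log t / t) atTop (𝓝 0) := by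
        have := (Real.isLittleO_log_id_atTop.tendsto_div_nhds_zero).const_mul (slC q.c' q.es)
        rw [mul_zero] at this
        refine this.congr fun t => ?_
        simp only [id]
        ring
      have t2 : Tendsto (fun t : ℝ => slC q.c' q.es * q.c' / 2 * Real.log t) atTop atTop :=
        Real.tendsto_log_atTop.const_mul_atTop (by have := h.1; positivity)
      filter_upwards [t1.eventually (gt_mem_nhds one_pos), t2.eventually_ge_atTop δ₀⁻¹,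
        eventually_gt_atTop 1] with t b1 b2 b3 _ _
      have l0 : 0 < Real.log t := Real.log_pos b3
      have t0 : 0 < t := by linarith
      refine ⟨b1.le, by positivity, ?_⟩
      have e : slC q.c' q.es * Real.log t / t * (q.c' * t / 2) =
          slC q.c' q.es * q.c' / 2 * Real.log t := by
        field_simp
      show (slC q.c' q.es * Real.log t / t * (q.c' * t / 2))⁻¹ ≤ δ₀
      rw [e]
      exact inv_le_of_inv_le₀ hδ b2
    · exact Eventually.of_forall fun t a b => absurd ⟨a, b⟩ h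
  refine (h1.and EvC.pos).mono fun q hq z hz => ?_
  obtain ⟨hq1, ⟨-, ⟨-, -, hc, hes, -⟩, hM, -⟩⟩ := hq
  obtain ⟨a1, a2, a3⟩ := hq1 hc hes
  have hr : 0 < q.r₁ := by unfold Cst.r₁; positivity
  exact H q.τ q.r₁ a2 a1 hr a3 z hz

end Vale.Agent.P088.R2.H303.F
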